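import Mathlib

/-! Structured programs with one recursive procedure, their cost semantics, and a verified
translation of digit-stack programs into Mathlib's stack machines `Turing.FinTM2`. -/

namespace Vale.Agent.Lib.StackLang

open Turing Turing.TM2 Function

/-- Structured programs over atomic actions `A` and tests `C`; `call` runs the procedure body. -/
inductive Prog (A C : Type) : Type
  | act : A → Prog A C
  | seq : Prog A C → Prog A C → Prog A C
  | ite : C → Prog A C → Prog A C → Prog A C
  | loop : C → Prog A C → Prog A C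
  | call : Prog A C

/-- Big-step semantics with an upper bound on the number of steps. -/
inductive Run {A C S : Type} (act : A → S → S) (tst : C → S → Bool) (body : Prog A C) :
    Prog A C → S → S → ℕ → Prop
  | act (a : A) (s : S) : Run act tst body (.act a) s (act a s) 1
  | seq {p q : Prog A C} {s s' s'' : S} {t t' : ℕ} : Run act tst body p s s' t →
      Run act tst body q s' s'' t' → Run act tst body (.seq p q) s s'' (t + t')
  | iteT {c : C} {p q : Prog A C} {s s' : S} {t : ℕ} : tst c s = true →
      Run act tst body p s s' t → Run act tst body (.ite c p q) s s' (t + 1)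
  | iteF {c : C} {p q : Prog A C} {s s' : S} {t : ℕ} : tst c s = false →
      Run act tst body q s s' t → Run act tst body (.ite c p q) s s' (t + 1)
  | loopF {c : C} {p : Prog A C} {s : S} : tst c s = false →
      Run act tst body (.loop c p) s s 1
  | loopT {c : C} {p : Prog A C} {s s' s'' : S} {t t' : ℕ} : tst c s = true →
      Run act tst body p s s' t → Run act tst body (.loop c p) s' s'' t' →
      Run act tst body (.loop c p) s s'' (t + t' + 1)
  | call {s s' : S} {t : ℕ} : Run act tst body body s s' t →
      Run act tst body .call s s' (t + 2)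
  | weaken {p : Prog A C} {s s' : S} {t t' : ℕ} : Run act tst body p s s' t → t ≤ t' →
      Run act tst body p s s' t'

theorem Run.act' {A C S : Type} {act : A → S → S} {tst : C → S → Bool} {body : Prog A C}
    {a : A} {s s' : S} (h : act a s = s') : Run act tst body (.act a) s s' 1 :=
  h ▸ Run.act a s

theorem Run.congr {A C S : Type} {act : A → S → S} {tst : C → S → Bool} {body : Prog A C}
    {p : Prog A C} {s s' s'' : S} {t t' : ℕ} (h : Run act tst body p s s' t) (e : s' = s'')
    (ht : t ≤ t') : Run act tst body p s s'' t' :=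
  e ▸ h.weaken ht

/-- Digit-level actions: a digit is a bit or the end marker `none`. -/
inductive A1 (K σ : Type) : Type
  | rd : K → (σ → Option Bool → σ) → A1 K σ
  | wr : K → (σ → Option Bool) → A1 K σ
  | pk : K → (σ → Option Bool → σ) → A1 K σ
  | set : (σ → σ) → A1 K σ

/-- Digit-level states. -/
abbrev S1 (K σ : Type) : Type := σ × (K → List (Option Bool))

section
variable {K σ : Type} [DecidableEq K]

/-- Semantics of the digit-level actions. -/
def act1 : A1 K σ → S1 K σ → S1 K σ
  | .rd k f, s => (f s.1 (s.2 k).head?.join, update s.2 k (s.2 k).tail)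
  | .wr k g, s => (s.1, update s.2 k (g s.1 :: s.2 k))
  | .pk k f, s => (f s.1 ((s.2 k).head?.map Option.isSome), s.2)
  | .set f, s => (f s.1, s.2)

/-- Semantics of the digit-level tests. -/
def tst1 : (σ → Bool) → S1 K σ → Bool := fun c s => c s.1

/-- Binary code of a digit. -/
def encD : Option Bool → List Bool
  | none => [false]
  | some b => [true, b]

/-- Labels. -/
@[reducible] def Lab {A C : Type} : Prog A C → Type
  | .act _ => Unit
  | .seq p q => Lab p ⊕ Lab q
  | .ite _ p q => Option (Lab p ⊕ Lab q)
  | .loop _ p => Option (Lab p)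
  | .call => Bool

/-- Finiteness of labels. -/
@[reducible] def labFin {A C : Type} : (p : Prog A C) → Fintype (Lab p)
  | .act _ => inferInstanceAs (Fintype Unit)
  | .seq p q =>
    letI := labFin p; letI := labFin q; inferInstanceAs (Fintype (Lab p ⊕ Lab q))
  | .ite _ p q =>
    letI := labFin p; letI := labFin q; inferInstanceAs (Fintype (Option (Lab p ⊕ Lab q)))
  | .loop _ p => letI := labFin p; inferInstanceAs (Fintype (Option (Lab p)))
  | .call => inferInstanceAs (Fintype Bool)

/-- Entry label. -/
def start {A C : Type} : (p : Prog A C) → Lab p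
  | .act _ => ()
  | .seq p _ => Sum.inl (start p)
  | .ite _ _ _ => none
  | .loop _ _ => none
  | .call => false

/-- Stack alphabets: one stack of return labels, the others binary. -/
@[reducible] def Gam (K Λ : Type) : Option K → Type
  | none => Λ
  | some _ => Bool

/-- Machine states. -/
abbrev Sg (σ Λ : Type) : Type := σ × Option Bool × Option Λ

/-- Machine statements. -/
abbrev Stm (K σ Λ : Type) : Type := Stmt (Gam K Λ) Λ (Sg σ Λ)

/-- Code of an atomic action followed by `q`. -/
def codeA {Λ : Type} : A1 K σ → Stm K σ Λ → Stm K σ Λ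
  | .rd k f, q => .pop (some k) (fun v (o : Option Bool) => (v.1, o, v.2.2))
      (.branch (fun v => v.2.1 == some true)
        (.pop (some k) (fun v (o : Option Bool) => (f v.1 o, v.2)) q)
        (.load (fun v => (f v.1 none, v.2)) q))
  | .wr k g, q => .branch (fun v => (g v.1).isSome)
      (.push (some k) (fun v => ((g v.1).getD false : Bool))
        (.push (some k) (fun _ => (true : Bool)) q))
      (.push (some k) (fun _ => (false : Bool)) q)
  | .pk k f, q => .peek (some k) (fun v (o : Option Bool) => (f v.1 o, v.2)) q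
  | .set f, q => .load (fun v => (f v.1, v.2)) q

/-- The translation. -/
def code {Λ : Type} (lb : Λ) : (p : Prog (A1 K σ) (σ → Bool)) → (Lab p → Λ) → Stm K σ Λ →
    Lab p → Stm K σ Λ
  | .act a, _, e, _ => codeA a e
  | .seq p q, ι, _, .inl x => code lb p (fun y => ι (.inl y)) (.goto fun _ => ι (.inr (start q))) x
  | .seq _ q, ι, e, .inr x => code lb q (fun y => ι (.inr y)) e x
  | .ite c p q, ι, _, none => .branch (fun v => c v.1)
      (.goto fun _ => ι (some (.inl (start p)))) (.goto fun _ => ι (some (.inr (start q))))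
  | .ite _ p _, ι, e, some (.inl x) => code lb p (fun y => ι (some (.inl y))) e x
  | .ite _ _ q, ι, e, some (.inr x) => code lb q (fun y => ι (some (.inr y))) e x
  | .loop c p, ι, e, none => .branch (fun v => c v.1) (.goto fun _ => ι (some (start p))) e
  | .loop _ p, ι, _, some x => code lb p (fun y => ι (some y)) (.goto fun _ => ι none) x
  | .call, ι, _, false => .push none (fun _ => (ι true : Λ)) (.goto fun _ => lb)
  | .call, _, e, true => e

/-- Return from the procedure. -/
def ret {Λ : Type} (lb : Λ) : Stm K σ Λ :=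
  .pop none (fun v (o : Option Λ) => (v.1, v.2.1, o)) (.goto fun v => v.2.2.getD lb)

/-- Machine stacks. -/
def mk {Λ : Type} (S : K → List (Option Bool)) (R : List Λ) : ∀ k, List (Gam K Λ k)
  | none => R
  | some k => (S k).flatMap encD

theorem upd_some {Λ : Type} (S : K → List (Option Bool)) (R : List Λ) (k : K)
    (l : List (Option Bool)) :
    update (mk S R) (some k) (l.flatMap encD : List Bool) = mk (update S k l) R := by
  funext j
  rcases j with _ | j
  · rw [update_of_ne (by simp)]; rfl
  · by_cases h : j = k
    · subst h; simp [mk]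
    · rw [update_of_ne (by simpa using h)]; simp [mk, update_of_ne h]

theorem upd_none {Λ : Type} (S : K → List (Option Bool)) (R R' : List Λ) :
    update (mk S R) none (R' : List Λ) = mk S R' := by
  funext j
  rcases j with _ | j
  · simp [mk]
  · rw [update_of_ne (by simp)]; rfl

theorem stepAux_codeA {Λ : Type} (a : A1 K σ) (q : Stm K σ Λ) (s : S1 K σ)
    (sc : Option Bool × Option Λ) (R : List Λ) :
    ∃ sc', stepAux (codeA a q) (s.1, sc) (mk s.2 R) =
      stepAux q ((act1 a s).1, sc') (mk (act1 a s).2 R) := by
  obtain ⟨v, S⟩ := s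
  rcases a with ⟨k, f⟩ | ⟨k, g⟩ | ⟨k, f⟩ | f
  · rcases hS : S k with _ | ⟨_ | b, l⟩
    · refine ⟨(none, sc.2), ?_⟩
      have h1 : mk S R (some k) = ([] : List Bool) := by simp [mk, hS]
      have h2 := upd_some S R k []
      simp only [codeA, act1, stepAux, h1, hS]
      simp only [List.flatMap_nil] at h2
      erw [h2]
      rfl
    · refine ⟨(some false, sc.2), ?_⟩
      have h1 : mk S R (some k) = (false :: l.flatMap encD : List Bool) := by simp [mk, hS, encD]
      have h2 := upd_some S R k l
      simp only [codeA, act1, stepAux, h1, hS]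
      erw [h2]
      rfl
    · refine ⟨(some true, sc.2), ?_⟩
      have h1 : mk S R (some k) = (true :: b :: l.flatMap encD : List Bool) := by
        simp [mk, hS, encD]
      have h2 := upd_some S R k l
      simp only [codeA, act1, stepAux, h1, hS]
      erw [update_self, update_idem, h2]
      rfl
  · refine ⟨sc, ?_⟩
    have h2 := upd_some S R k (g v :: S k)
    rcases hg : g v with _ | b
    · simp only [codeA, act1, stepAux, hg]
      rw [hg] at h2
      erw [h2]
      rfl
    · simp only [codeA, act1, stepAux, hg]
      rw [hg] at h2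
      erw [update_self, update_idem, h2]
      rfl
  · refine ⟨sc, ?_⟩
    have h1 : (mk S R (some k)).head? = (S k).head?.map Option.isSome := by
      rcases hS : S k with _ | ⟨_ | b, l⟩ <;> simp [mk, hS, encD]
    simp only [codeA, act1, stepAux]
    erw [h1]
  · exact ⟨sc, rfl⟩

/-- Reachability in at most `t` steps. -/
def Steps {Λ : Type} (M : Λ → Stm K σ Λ) (c c' : Cfg (Gam K Λ) Λ (Sg σ Λ)) (t : ℕ) : Prop :=
  ∃ t0 ≤ t, (flip bind (step M))^[t0] (some c) = some c'

theorem Steps.trans {Λ : Type} {M : Λ → Stm K σ Λ} {c c' c'' : Cfg (Gam K Λ) Λ (Sg σ Λ)}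
    {t t' : ℕ} (h : Steps M c c' t) (h' : Steps M c' c'' t') : Steps M c c'' (t + t') := by
  obtain ⟨a, ha, h⟩ := h
  obtain ⟨b, hb, h'⟩ := h'
  refine ⟨b + a, by omega, ?_⟩
  rw [iterate_add_apply, h, h']

theorem Steps.one {Λ : Type} {M : Λ → Stm K σ Λ} {l : Λ} {q : Stm K σ Λ} (h : M l = q)
    (v : Sg σ Λ) (S : ∀ k, List (Gam K Λ k)) : Steps M ⟨some l, v, S⟩ (stepAux q v S) 1 :=
  h ▸ ⟨1, le_rfl, rfl⟩

theorem Steps.mono {Λ : Type} {M : Λ → Stm K σ Λ} {c c' : Cfg (Gam K Λ) Λ (Sg σ Λ)}
    {t t' : ℕ} (h : Steps M c c' t) (ht : t ≤ t') : Steps M c c' t' := by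
  obtain ⟨a, ha, h⟩ := h
  exact ⟨a, by omega, h⟩

theorem sim1 {Λ : Type} (M : Λ → Stm K σ Λ) (body : Prog (A1 K σ) (σ → Bool))
    (ιb : Lab body → Λ)
    (hb : ∀ l, M (ιb l) = code (ιb (start body)) body ιb (ret (ιb (start body))) l)
    {p : Prog (A1 K σ) (σ → Bool)} {s s' : S1 K σ} {t : ℕ} (h : Run act1 tst1 body p s s' t) :
    ∀ (ι : Lab p → Λ) (e : Stm K σ Λ), (∀ l, M (ι l) = code (ιb (start body)) p ι e l) →
      ∀ (sc : Option Bool × Option Λ) (R : List Λ), ∃ sc',
        Steps M ⟨some (ι (start p)), (s.1, sc), mk s.2 R⟩ (stepAux e (s'.1, sc') (mk s'.2 R)) t := by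
  induction h with
  | act a s =>
    intro ι e hM sc R
    obtain ⟨sc', h⟩ := stepAux_codeA a e s sc R
    refine ⟨sc', ?_⟩
    rw [← h]
    exact Steps.one (hM ()) (s.1, sc) (mk s.2 R)
  | seq _ _ ih1 ih2 =>
    intro ι e hM sc R
    obtain ⟨sc1, h1⟩ := ih1 (fun y => ι (.inl y)) _ (fun l => hM (.inl l)) sc R
    obtain ⟨sc2, h2⟩ := ih2 (fun y => ι (.inr y)) e (fun l => hM (.inr l)) sc1 R
    exact ⟨sc2, h1.trans h2⟩
  | @iteT c p q s s' t hc _ ih =>
    intro ι e hM sc R
    obtain ⟨sc1, h1⟩ := ih (fun y => ι (some (.inl y))) e (fun l => hM (some (.inl l))) sc R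
    refine ⟨sc1, ?_⟩
    have := Steps.one (hM none) (s.1, sc) (mk s.2 R)
    have hc' : c s.1 = true := hc
    simp only [code, stepAux, hc', cond_true] at this
    exact (this.trans h1).mono (by omega)
  | @iteF c p q s s' t hc _ ih =>
    intro ι e hM sc R
    obtain ⟨sc1, h1⟩ := ih (fun y => ι (some (.inr y))) e (fun l => hM (some (.inr l))) sc R
    refine ⟨sc1, ?_⟩
    have := Steps.one (hM none) (s.1, sc) (mk s.2 R)
    have hc' : c s.1 = false := hc
    simp only [code, stepAux, hc', cond_false] at this
    exact (this.trans h1).mono (by omega)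
  | @loopF c p s hc =>
    intro ι e hM sc R
    refine ⟨sc, ?_⟩
    have := Steps.one (hM none) (s.1, sc) (mk s.2 R)
    have hc' : c s.1 = false := hc
    simp only [code, stepAux, hc', cond_false] at this
    exact this
  | @loopT c p s s' s'' t t' hc _ _ ih1 ih2 =>
    intro ι e hM sc R
    obtain ⟨sc1, h1⟩ := ih1 (fun y => ι (some y)) _ (fun l => hM (some l)) sc R
    obtain ⟨sc2, h2⟩ := ih2 ι e hM sc1 R
    refine ⟨sc2, ?_⟩
    have := Steps.one (hM none) (s.1, sc) (mk s.2 R)
    have hc' : c s.1 = true := hc
    simp only [code, stepAux, hc', cond_true] at this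
    exact ((this.trans h1).trans h2).mono (by omega)
  | @call s s' t _ ih =>
    intro ι e hM sc R
    obtain ⟨sc1, h1⟩ := ih ιb _ hb sc (ι true :: R)
    refine ⟨(sc1.1, some (ι true)), ?_⟩
    have h0 := Steps.one (hM false) (s.1, sc) (mk s.2 R)
    simp only [code, stepAux] at h0
    erw [upd_none] at h0
    simp only [ret, stepAux] at h1
    erw [upd_none] at h1
    have h2 := Steps.one (hM true) (s'.1, sc1.1, some (ι true)) (mk s'.2 R)
    exact ((h0.trans h1).trans h2).mono (by omega)
  | weaken _ ht ih =>
    intro ι e hM sc R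
    obtain ⟨sc1, h1⟩ := ih ι e hM sc R
    exact ⟨sc1, h1.mono ht⟩

/-- The machine of a main program and a procedure body. -/
def machine [Fintype K] [Fintype σ] (v0 : σ) (k0 k1 : K) (main body : Prog (A1 K σ) (σ → Bool)) :
    FinTM2 :=
  letI := labFin main
  letI := labFin body
  { K := Option K
    k₀ := some k0
    k₁ := some k1
    Γ := Gam K (Lab main ⊕ Lab body)
    Λ := Lab main ⊕ Lab body
    main := .inl (start main)
    σ := Sg σ (Lab main ⊕ Lab body)
    initialState := (v0, none, none)
    Γk₀Fin := inferInstanceAs (Fintype Bool)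
    m := fun l => match l with
      | .inl x => code (.inr (start body)) main .inl (.load (fun _ => (v0, none, none)) .halt) x
      | .inr x => code (.inr (start body)) body .inr (ret (.inr (start body))) x }

theorem machine_finite [Fintype K] [Fintype σ] (v0 : σ) (k0 k1 : K)
    (main body : Prog (A1 K σ) (σ → Bool)) (k : (machine v0 k0 k1 main body).K) :
    Finite ((machine v0 k0 k1 main body).Γ k) := by
  let _ := labFin main
  let _ := labFin body
  rcases k with _ | k
  · exact inferInstanceAs (Finite (Lab main ⊕ Lab body))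
  · exact inferInstanceAs (Finite Bool)

theorem machine_outputs [Fintype K] [Fintype σ] (v0 v : σ) (k0 k1 : K)
    (main body : Prog (A1 K σ) (σ → Bool)) (i o : List (Option Bool)) (t : ℕ)
    (h : Run act1 tst1 body main (v0, update (fun _ => []) k0 i) (v, update (fun _ => []) k1 o) t) :
    Nonempty (TM2OutputsInTime (machine v0 k0 k1 main body) (i.flatMap encD : List Bool)
      (some (o.flatMap encD : List Bool)) t) := by
  obtain ⟨sc, t0, ht0, h⟩ := sim1 (machine v0 k0 k1 main body).m body Sum.inr (fun _ => rfl) h
    Sum.inl (.load (fun _ => (v0, none, none)) .halt) (fun _ => rfl) (none, none) []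
  have e1 : initList (machine v0 k0 k1 main body) (i.flatMap encD : List Bool) =
      ⟨some (.inl (start main)), (v0, none, none), mk (update (fun _ => []) k0 i) []⟩ := by
    unfold initList
    congr 1
    funext j
    rcases j with _ | j
    · rw [dif_neg (by simp [machine])]; rfl
    · by_cases hj : j = k0
      · subst hj
        erw [dif_pos rfl]
        simp [mk]
        rfl
      · rw [dif_neg (by simpa [machine] using hj)]
        simp [mk, update_of_ne hj]
        rfl
  have e2 : haltList (machine v0 k0 k1 main body) (o.flatMap encD : List Bool) =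
      ⟨none, (v0, none, none), mk (update (fun _ => []) k1 o) []⟩ := by
    unfold haltList
    congr 1
    funext j
    rcases j with _ | j
    · rw [dif_neg (by simp [machine])]; rfl
    · by_cases hj : j = k1
      · subst hj
        erw [dif_pos rfl]
        simp [mk]
        rfl
      · rw [dif_neg (by simpa [machine] using hj)]
        simp [mk, update_of_ne hj]
        rfl
  refine ⟨⟨⟨t0, ?_⟩, ht0⟩⟩
  erw [Option.map_some, e1, e2]
  exact h

end

end Vale.Agent.Lib.StackLang
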