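import Vale.Agent.Lib.StackLang.Basic

/-! Digit-level routines: transfer, addition, subtraction, normalisation. -/

namespace Vale.Agent.Lib.StackLang

open Function

/-- Registers of the digit-level routines. -/
abbrev Rg : Type := Option Bool × Option Bool × Bool

/-- Digit-level programs. -/
abbrev P1 (K : Type) : Type := Prog (A1 K Rg) (Rg → Bool)

variable {K : Type} [DecidableEq K]

/-- read into the first register -/
def rdA (k : K) : A1 K Rg := .rd k (fun v o => (o, v.2))
/-- read into the second register -/
def rdB (k : K) : A1 K Rg := .rd k (fun v o => (v.1, o, v.2.2))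

/-- write the first register on several stacks -/
def wrs : List K → P1 K
  | [] => .act (.set id)
  | w :: ws => .seq (.act (.wr w (fun v => v.1))) (wrs ws)

theorem run_wrs (body : P1 K) (ws : List K) (hws : ws.Nodup) (v : Rg)
    (S : K → List (Option Bool)) :
    Run act1 tst1 body (wrs ws) (v, S) (v, fun k => if k ∈ ws then v.1 :: S k else S k)
      (ws.length + 1) := by
  induction ws generalizing S with
  | nil => exact (Run.act _ _).congr (by simp [act1]) le_rfl
  | cons w ws ih =>
    rw [List.nodup_cons] at hws
    refine ((Run.act _ _).seq (ih hws.2 _)).congr ?_ (by simp; omega)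
    simp only [Prod.mk.injEq, true_and]
    funext k
    by_cases hk : k = w
    · subst hk; simp [hws.1]
    · simp [hk]

/-- the transfer loop -/
def xferLoop (a : K) (ws : List K) : P1 K :=
  .loop (fun v => v.1.isSome) (.seq (wrs ws) (.act (rdA a)))

/-- move the digits of the top number of `a` (reversed, without end marker) to all of `ws` -/
def xfer (a : K) (ws : List K) : P1 K := .seq (.act (rdA a)) (xferLoop a ws)

theorem run_xferLoop (body : P1 K) (a : K) (ws : List K) (hws : ws.Nodup) (ha : a ∉ ws)
    (rest : List (Option Bool)) (hr : rest.head?.join = none) (ds : List Bool) :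
    ∀ (v : Rg) (S : K → List (Option Bool)), S a = ds.map some ++ rest →
    Run act1 tst1 body (xferLoop a ws) (act1 (rdA a) (v, S))
      ((none, v.2), fun k => if k = a then rest.tail else
        if k ∈ ws then ds.reverse.map some ++ S k else S k)
      (ds.length * (ws.length + 3) + 1) := by
  induction ds with
  | nil =>
    intro v S hS
    refine (Run.loopF ?_).congr ?_ (by simp)
    · simp [tst1, act1, rdA, hS, hr]
    · simp only [act1, rdA, hS, List.map_nil, List.nil_append, hr, Prod.mk.injEq, true_and]
      funext k
      by_cases hk : k = a
      · subst hk; simp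
      · simp [hk]
  | cons d ds ih =>
    intro v S hS
    have h1 : act1 (rdA a) (v, S) = ((some d, v.2), update S a (ds.map some ++ rest)) := by
      simp [act1, rdA, hS]
    rw [h1]
    refine (Run.loopT (by simp [tst1]) ((run_wrs body ws hws _ _).seq (Run.act _ _))
      (ih _ _ ?_)).congr ?_ ?_
    · simp [ha]
    · simp only [Prod.mk.injEq, true_and]
      funext k
      by_cases hk : k = a
      · simp [hk]
      · by_cases hw : k ∈ ws <;> simp [hk, hw]
    · simp only [List.length_cons]; nlinarith

theorem run_xfer (body : P1 K) (a : K) (ws : List K) (hws : ws.Nodup) (ha : a ∉ ws)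
    (rest : List (Option Bool)) (hr : rest.head?.join = none) (ds : List Bool)
    (v : Rg) (S : K → List (Option Bool)) (hS : S a = ds.map some ++ rest) :
    Run act1 tst1 body (xfer a ws) (v, S)
      ((none, v.2), fun k => if k = a then rest.tail else
        if k ∈ ws then ds.reverse.map some ++ S k else S k)
      (ds.length * (ws.length + 3) + 2) :=
  ((Run.act _ _).seq (run_xferLoop body a ws hws ha rest hr ds v S hS)).weaken (by omega)

/-- skip leading zeros -/
def stripLoop (a : K) : P1 K := .loop (fun v => v.1 == some false) (.act (rdA a))

theorem run_stripLoop (body : P1 K) (a : K) (ds : List Bool) :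
    ∀ (v : Rg) (S : K → List (Option Bool)), S a = ds.map some →
    Run act1 tst1 body (stripLoop a) (act1 (rdA a) (v, S))
      (act1 (rdA a) (v, update S a ((ds.dropWhile (fun b => !b)).map some)))
      (ds.length * 2 + 1) := by
  induction ds with
  | nil =>
    intro v S hS
    refine (Run.loopF ?_).congr ?_ (by simp)
    · simp [tst1, act1, rdA, hS]
    · simp [act1, rdA, hS]
  | cons d ds ih =>
    intro v S hS
    cases d
    · have h1 : act1 (rdA a) (v, S) = ((some false, v.2), update S a (ds.map some)) := by
        simp [act1, rdA, hS]
      rw [h1]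
      refine (Run.loopT (by simp [tst1]) (Run.act _ _) (ih _ _ (by simp))).congr ?_ ?_
      · simp [act1, rdA]
      · simp only [List.length_cons]; omega
    · refine (Run.loopF ?_).congr ?_ (by simp)
      · simp [tst1, act1, rdA, hS]
      · simp [act1, rdA, hS]

/-- value of a list of bits, least significant first -/
def val : List Bool → ℕ
  | [] => 0
  | b :: l => Nat.bit b (val l)

theorem val_bits (n : ℕ) : val n.bits = n := by
  induction n using Nat.binaryRec' with
  | zero => simp [val]
  | bit b n h ih => rw [Nat.bits_append_bit _ _ h, val, ih]

theorem bits_val (l : List Bool) : (val l).bits = (l.reverse.dropWhile (fun b => !b)).reverse := by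
  induction l with
  | nil => simp [val]
  | cons b l ih =>
    rw [List.reverse_cons, List.dropWhile_append, val]
    by_cases h0 : val l = 0
    · rw [h0] at ih ⊢
      have : List.dropWhile (fun b => !b) l.reverse = [] := by simpa using ih.symm
      rw [this]
      cases b <;> simp [Nat.bit]
    · rw [Nat.bits_append_bit _ _ (fun h => absurd h h0)]
      have : ¬ (List.dropWhile (fun b => !b) l.reverse).isEmpty := by
        intro h
        rw [List.isEmpty_iff] at h
        rw [h] at ih
        apply h0
        rw [← val_bits (val l), ih]; rfl
      rw [if_neg this, ih]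
      simp

/-- code of a natural number as digits -/
def codeD (x : ℕ) : List (Option Bool) := x.bits.map some ++ [none]

/-- write the normalised number held (reversed) on `t` on top of `a` -/
def norm (t a : K) : P1 K :=
  .seq (.act (.wr a (fun _ => none))) (.seq (.act (rdA t)) (.seq (stripLoop t) (xferLoop t [a])))

theorem run_norm (body : P1 K) (t a : K) (hta : t ≠ a) (ds : List Bool) (v : Rg)
    (S : K → List (Option Bool)) (hS : S t = ds.reverse.map some) :
    Run act1 tst1 body (norm t a) (v, S)
      ((none, v.2), fun k => if k = t then [] else if k = a then codeD (val ds) ++ S a else S k)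
      (ds.length * 6 + 4) := by
  have h1 := run_stripLoop body t ds.reverse v (update S a (none :: S a))
    (by rw [update_of_ne hta, hS])
  have h2 := run_xferLoop body t [a] (by simp) (by simpa using hta) [] rfl
    (ds.reverse.dropWhile (fun b => !b)) v
    (update (update S a (none :: S a)) t ((ds.reverse.dropWhile (fun b => !b)).map some)) (by simp)
  have hl : (ds.reverse.dropWhile (fun b => !b)).length ≤ ds.length := by
    have := (List.dropWhile_suffix (l := ds.reverse) (fun b => !b)).length_le
    simpa using this
  refine ((Run.act _ _).seq ((Run.act _ _).seq (h1.seq h2))).congr ?_ ?_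
  · simp only [Prod.mk.injEq, true_and]
    funext k
    by_cases hk : k = t
    · simp [hk]
    · by_cases hw : k = a
      · subst hw
        simp [hk, codeD, bits_val]
      · simp [hk, hw]
  · simp only [List.length_reverse, List.length_cons, List.length_nil]; omega

/-- digitwise arithmetic with a carry -/
def arithL (op : Bool → Bool → Bool → Bool × Bool) : ℕ → List Bool → List Bool → Bool →
    List Bool × Bool
  | 0, _, _, c => ([], c)
  | n + 1, xs, ys, c =>
    ((op (xs.headD false) (ys.headD false) c).1 ::
      (arithL op n xs.tail ys.tail (op (xs.headD false) (ys.headD false) c).2).1,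
      (arithL op n xs.tail ys.tail (op (xs.headD false) (ys.headD false) c).2).2)

theorem arithL_length (op : Bool → Bool → Bool → Bool × Bool) (n : ℕ) (xs ys : List Bool)
    (c : Bool) : (arithL op n xs ys c).1.length = n := by
  induction n generalizing xs ys c with
  | zero => rfl
  | succ n ih => simp [arithL, ih]

/-- the arithmetic loop -/
def arithLoop (op : Bool → Bool → Bool → Bool × Bool) (t0 t1 t2 : K) : P1 K :=
  .loop (fun v => v.1.isSome || v.2.1.isSome)
    (.seq (.act (.wr t0 (fun v => some (op (v.1.getD false) (v.2.1.getD false) v.2.2).1)))
    (.seq (.act (.set (fun v => (v.1, v.2.1, (op (v.1.getD false) (v.2.1.getD false) v.2.2).2))))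
    (.seq (.act (rdA t1)) (.act (rdB t2)))))

theorem run_arithLoop (body : P1 K) (op : Bool → Bool → Bool → Bool × Bool) (t0 t1 t2 : K)
    (h01 : t0 ≠ t1) (h02 : t0 ≠ t2) (h12 : t1 ≠ t2) (n : ℕ) :
    ∀ (xs ys : List Bool) (v : Rg) (S : K → List (Option Bool)), S t1 = xs.map some →
    S t2 = ys.map some → max xs.length ys.length = n →
    Run act1 tst1 body (arithLoop op t0 t1 t2) (act1 (rdB t2) (act1 (rdA t1) (v, S)))
      ((none, none, (arithL op n xs ys v.2.2).2), fun k => if k = t1 then [] else
        if k = t2 then [] else
        if k = t0 then (arithL op n xs ys v.2.2).1.reverse.map some ++ S t0 else S k)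
      (n * 5 + 1) := by
  induction n with
  | zero =>
    intro xs ys v S h1 h2 hn
    have hx : xs = [] := List.eq_nil_of_length_eq_zero (by omega)
    have hy : ys = [] := List.eq_nil_of_length_eq_zero (by omega)
    subst hx hy
    refine (Run.loopF ?_).congr ?_ (by simp)
    · simp [tst1, act1, rdA, rdB, h1, h2, update_of_ne h12.symm]
    · simp only [act1, rdA, rdB, h1, h2, update_of_ne h12.symm, arithL, List.map_nil,
        List.head?_nil, Option.join_none, List.tail_nil, Prod.mk.injEq, true_and]
      funext k
      by_cases hk : k = t2
      · subst hk; simp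
      · by_cases hk1 : k = t1
        · subst hk1; simp [hk]
        · simp [hk, hk1]
          rintro rfl; rfl
  | succ n ih =>
    intro xs ys v S h1 h2 hn
    have e1 : act1 (rdB t2) (act1 (rdA t1) (v, S)) = ((xs.head?, ys.head?, v.2.2),
        update (update S t1 (xs.tail.map some)) t2 (ys.tail.map some)) := by
      simp only [act1, rdA, rdB, h1, h2, update_of_ne h12.symm]
      cases xs <;> cases ys <;> simp
    rw [e1]
    refine (Run.loopT ?_ ((Run.act _ _).seq ((Run.act _ _).seq ((Run.act _ _).seq (Run.act _ _))))
      (ih xs.tail ys.tail _ _ ?_ ?_ ?_)).congr ?_ (by omega)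
    · cases xs <;> cases ys <;> simp [tst1] at hn ⊢
    · simp [act1, update_of_ne h01.symm, update_of_ne h12]
    · simp [act1, update_of_ne h02.symm]
    · simp only [List.length_tail]; omega
    · have ex : xs.head?.getD false = xs.headD false := by cases xs <;> rfl
      have ey : ys.head?.getD false = ys.headD false := by cases ys <;> rfl
      simp only [act1, arithL, ex, ey, Prod.mk.injEq, true_and]
      funext k
      by_cases hk : k = t2
      · subst hk; simp
      · by_cases hk1 : k = t1
        · subst hk1; simp
        · by_cases hk0 : k = t0
          · subst hk0; simp [hk, hk1]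
          · simp [hk, hk1, hk0]

/-- full adder -/
def opAdd (x y c : Bool) : Bool × Bool := (xor (xor x y) c, (x && y) || (c && xor x y))
/-- full subtractor -/
def opSub (x y c : Bool) : Bool × Bool := (xor (xor x y) c, (!x && (y || c)) || (y && c))

theorem val_eq (l : List Bool) : val l = (l.headD false).toNat + 2 * val l.tail := by
  cases l with
  | nil => simp [val]
  | cons b l => simp [val, Nat.bit_val]; omega

theorem val_arith_add (n : ℕ) : ∀ (xs ys : List Bool) (c : Bool), xs.length ≤ n → ys.length ≤ n →
    val ((arithL opAdd n xs ys c).1 ++ [(arithL opAdd n xs ys c).2]) = val xs + val ys + c.toNat := by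
  induction n with
  | zero =>
    intro xs ys c hx hy
    have hx : xs = [] := List.eq_nil_of_length_eq_zero (by omega)
    have hy : ys = [] := List.eq_nil_of_length_eq_zero (by omega)
    subst hx hy
    cases c <;> simp [arithL, val]
  | succ n ih =>
    intro xs ys c hx hy
    simp only [arithL, List.cons_append, val]
    rw [ih _ _ _ (by simp; omega) (by simp; omega), val_eq xs, val_eq ys, Nat.bit_val]
    cases xs.headD false <;> cases ys.headD false <;> cases c <;> simp [opAdd] <;> omega

theorem val_arith_sub (n : ℕ) : ∀ (xs ys : List Bool) (c : Bool), xs.length ≤ n → ys.length ≤ n →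
    val (arithL opSub n xs ys c).1 + val ys + c.toNat =
      val xs + 2 ^ n * (arithL opSub n xs ys c).2.toNat ∧ val (arithL opSub n xs ys c).1 < 2 ^ n := by
  induction n with
  | zero =>
    intro xs ys c hx hy
    have hx : xs = [] := List.eq_nil_of_length_eq_zero (by omega)
    have hy : ys = [] := List.eq_nil_of_length_eq_zero (by omega)
    subst hx hy
    cases c <;> simp [arithL, val]
  | succ n ih =>
    intro xs ys c hx hy
    simp only [arithL, val]
    obtain ⟨h1, h2⟩ := ih xs.tail ys.tail (opSub (xs.headD false) (ys.headD false) c).2
      (by simp; omega) (by simp; omega)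
    rw [val_eq xs, val_eq ys, Nat.bit_val, pow_succ]
    generalize (arithL opSub n xs.tail ys.tail (opSub (xs.headD false) (ys.headD false) c).2) = r at *
    obtain ⟨r1, r2⟩ := r
    revert h1
    cases xs.headD false <;> cases ys.headD false <;> cases c <;> cases r2 <;>
      simp [opSub] at h2 ⊢ <;> omega

end Vale.Agent.Lib.StackLang
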