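import Vale.Agent.Lib.StackLang.Digits

/-! Programs over stacks of natural numbers (unit cost), and their simulation by digit-level
programs, hence by Mathlib's `Turing.FinTM2`. -/

namespace Vale.Agent.Lib.StackLang

open Function

/-- Actions on stacks of naturals. -/
inductive A2 (K : Type) : Type
  | zero : K → A2 K
  | one : K → A2 K
  | pop : K → A2 K
  | dup : K → K → A2 K
  | add : K → K → A2 K
  | sub : K → K → A2 K
  | half : K → A2 K

/-- Tests: nonempty, nonzero top. -/
inductive C2 (K : Type) : Type
  | ne : K → C2 K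
  | nz : K → C2 K

/-- Programs over stacks of naturals. -/
abbrev P2 (K : Type) : Type := Prog (A2 K) (C2 K)

variable {K : Type} [DecidableEq K]

/-- Semantics of the actions. -/
def act2 : A2 K → (K → List ℕ) → (K → List ℕ)
  | .zero k, s => update s k (0 :: s k)
  | .one k, s => update s k (1 :: s k)
  | .pop k, s => update s k (s k).tail
  | .dup a b, s => update (update s a ((s a).headD 0 :: (s a).tail)) b
      ((s a).headD 0 :: update s a ((s a).headD 0 :: (s a).tail) b)
  | .add a b, s => update (update s b (s b).tail) a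
      (((update s b (s b).tail a).headD 0 + (s b).headD 0) :: (update s b (s b).tail a).tail)
  | .sub a b, s => update (update s b (s b).tail) a
      (((update s b (s b).tail a).headD 0 - (s b).headD 0) :: (update s b (s b).tail a).tail)
  | .half a, s => update s a ((s a).headD 0 / 2 :: (s a).tail)

/-- Semantics of the tests. -/
def tst2 : C2 K → (K → List ℕ) → Bool
  | .ne k, s => !(s k).isEmpty
  | .nz k, s => (s k).headD 0 != 0

/-- Runs of programs over stacks of naturals. -/
abbrev Run2 (body : P2 K) : P2 K → (K → List ℕ) → (K → List ℕ) → ℕ → Prop := Run act2 tst2 body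

/-- encoding of states -/
def enc2 (s : K → List ℕ) : K ⊕ Fin 3 → List (Option Bool)
  | .inl k => (s k).flatMap codeD
  | .inr _ => []

/-- load the two operands -/
def loadOps (a b : K) : P1 (K ⊕ Fin 3) :=
  .seq (xfer (.inl b) [.inr 0]) (.seq (xfer (.inr 0) [.inr 2])
    (.seq (xfer (.inl a) [.inr 0]) (xfer (.inr 0) [.inr 1])))

/-- digitwise arithmetic on the loaded operands -/
def arith (op : Bool → Bool → Bool → Bool × Bool) : P1 (K ⊕ Fin 3) :=
  .seq (.act (.set (fun v => (v.1, v.2.1, false)))) (.seq (.act (rdA (.inr 1)))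
    (.seq (.act (rdB (.inr 2))) (arithLoop op (.inr 0) (.inr 1) (.inr 2))))

/-- translation of actions -/
def trA : A2 K → P1 (K ⊕ Fin 3)
  | .zero k => .act (.wr (.inl k) (fun _ => none))
  | .one k => .seq (.act (.wr (.inl k) (fun _ => none))) (.act (.wr (.inl k) (fun _ => some true)))
  | .pop k => xfer (.inl k) []
  | .dup a b => .seq (xfer (.inl a) [.inr 0, .inr 1])
      (.seq (.act (.wr (.inl a) (fun _ => none))) (.seq (xfer (.inr 0) [.inl a])
      (.seq (.act (.wr (.inl b) (fun _ => none))) (xfer (.inr 1) [.inl b]))))
  | .add a b => .seq (loadOps a b) (.seq (arith opAdd)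
      (.seq (.act (.wr (.inr 0) (fun v => some v.2.2))) (norm (.inr 0) (.inl a))))
  | .sub a b => .seq (loadOps a b) (.seq (arith opSub)
      (.seq (.ite (fun v => v.2.2) (xfer (.inr 0) []) (.act (.set id))) (norm (.inr 0) (.inl a))))
  | .half a => .seq (.act (rdA (.inl a)))
      (.ite (fun v => v.1.isSome) (.act (.set id)) (.act (.wr (.inl a) (fun _ => none))))

/-- translation of tests -/
def trC : C2 K → A1 (K ⊕ Fin 3) Rg
  | .ne k => .pk (.inl k) (fun v o => (v.1, v.2.1, o.isSome))
  | .nz k => .pk (.inl k) (fun v o => (v.1, v.2.1, o == some true))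

/-- translation of programs -/
def tr : P2 K → P1 (K ⊕ Fin 3)
  | .act a => trA a
  | .seq p q => .seq (tr p) (tr q)
  | .ite c p q => .seq (.act (trC c)) (.ite (fun v => v.2.2) (tr p) (tr q))
  | .loop c p => .seq (.act (trC c)) (.loop (fun v => v.2.2) (.seq (tr p) (.act (trC c))))
  | .call => .call

/-- the rest of a stack after the digits of its top number -/
def restD (l : List ℕ) : List (Option Bool) :=
  match l with
  | [] => []
  | _ :: l => none :: l.flatMap codeD

theorem flatMap_codeD (l : List ℕ) :
    l.flatMap codeD = (l.headD 0).bits.map some ++ restD l := by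
  cases l <;> simp [restD, codeD]

theorem restD_head (l : List ℕ) : (restD l).head?.join = none := by
  cases l <;> simp [restD]

theorem restD_tail (l : List ℕ) : (restD l).tail = l.tail.flatMap codeD := by
  cases l <;> simp [restD]

theorem enc2_update (s : K → List ℕ) (k : K) (l : List ℕ) :
    enc2 (update s k l) = update (enc2 s) (.inl k) (l.flatMap codeD) := by
  funext j
  rcases j with j | j
  · by_cases h : j = k
    · subst h; simp [enc2]
    · simp [enc2, h]
  · simp [enc2]

/-- all numbers have at most `B` bits -/
def Bd (s : K → List ℕ) (B : ℕ) : Prop := ∀ k, ∀ x ∈ s k, x < 2 ^ B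

omit [DecidableEq K] in
theorem Bd.mono {s : K → List ℕ} {B B' : ℕ} (h : Bd s B) (hB : B ≤ B') : Bd s B' :=
  fun k x hx => lt_of_lt_of_le (h k x hx) (Nat.pow_le_pow_right (by norm_num) hB)

omit [DecidableEq K] in
theorem Bd.head {s : K → List ℕ} {B : ℕ} (h : Bd s B) (k : K) : (s k).headD 0 < 2 ^ B := by
  rcases hk : s k with _ | ⟨x, l⟩
  · simp
  · exact h k x (by simp [hk])

omit [DecidableEq K] in
theorem Bd.len {s : K → List ℕ} {B : ℕ} (h : Bd s B) (k : K) :
    ((s k).headD 0).bits.length ≤ B := by
  rw [Nat.size_eq_bits_len, Nat.size_le]; exact h.head k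

theorem Bd.update {s : K → List ℕ} {B : ℕ} (h : Bd s B) (k : K) (l : List ℕ)
    (hl : ∀ x ∈ l, x < 2 ^ B) : Bd (update s k l) B := by
  intro j x hx
  by_cases hj : j = k
  · subst hj; exact hl x (by simpa using hx)
  · rw [update_of_ne hj] at hx; exact h j x hx

theorem Bd.tail {s : K → List ℕ} {B : ℕ} (h : Bd s B) (k : K) :
    Bd (Function.update s k (s k).tail) B :=
  h.update k _ (fun x hx => h k x (List.mem_of_mem_tail hx))

theorem Bd.cons {s : K → List ℕ} {B : ℕ} (h : Bd s B) (k : K) (y : ℕ) (hy : y < 2 ^ B) :
    Bd (Function.update s k (y :: s k)) B :=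
  h.update k _ (fun x hx => by
    rcases List.mem_cons.1 hx with rfl | hx
    · exact hy
    · exact h k x hx)

theorem Bd.repl {s : K → List ℕ} {B : ℕ} (h : Bd s B) (k : K) (y : ℕ) (hy : y < 2 ^ B) :
    Bd (Function.update s k (y :: (s k).tail)) B :=
  h.update k _ (fun x hx => by
    rcases List.mem_cons.1 hx with rfl | hx
    · exact hy
    · exact h k x (List.mem_of_mem_tail hx))

theorem Bd.act {s : K → List ℕ} {B : ℕ} (h : Bd s B) (a : A2 K) : Bd (act2 a s) (B + 1) := by
  have h' := h.mono (Nat.le_succ B)
  have hp : 2 ^ (B + 1) = 2 * 2 ^ B := by ring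
  have h0 : 0 < 2 ^ B := by positivity
  rcases a with k | k | k | ⟨a, b⟩ | ⟨a, b⟩ | ⟨a, b⟩ | a
  · exact h'.cons k 0 (by omega)
  · exact h'.cons k 1 (by omega)
  · exact h'.tail k
  · exact (h'.repl a _ (h'.head a)).cons b _ (h'.head a)
  · refine (h'.tail b).repl a _ ?_
    have h1 := (h.tail b).head a
    have h2 := h.head b
    omega
  · refine (h'.tail b).repl a _ ?_
    have h1 := (h.tail b).head a
    omega
  · refine h'.repl a _ ?_
    have h1 := h.head a
    omega

theorem run_loadOps (body : P1 (K ⊕ Fin 3)) (a b : K) (s : K → List ℕ) (B : ℕ) (h : Bd s B)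
    (v : Rg) :
    Run act1 tst1 body (loadOps a b) (v, enc2 s) ((none, v.2), fun k => match k with
      | .inl k => enc2 (update (update s b (s b).tail) a (update s b (s b).tail a).tail) (.inl k)
      | .inr i => if i = 1 then ((update s b (s b).tail a).headD 0).bits.map some
          else if i = 2 then ((s b).headD 0).bits.map some else [])
      (16 * B + 8) := by
  have l1 := h.len b
  have l2 := (h.tail b).len a
  refine ((run_xfer body (.inl b) [.inr 0] (by simp) (by simp) (restD (s b)) (restD_head _)
      ((s b).headD 0).bits v (enc2 s) (flatMap_codeD _)).seq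
    ((run_xfer body (.inr 0) [.inr 2] (by simp) (by simp) [] rfl
      ((s b).headD 0).bits.reverse _ _ (by simp [enc2])).seq
    ((run_xfer body (.inl a) [.inr 0] (by simp) (by simp) (restD (update s b (s b).tail a))
      (restD_head _) ((update s b (s b).tail a).headD 0).bits _ _ ?_).seq
    (run_xfer body (.inr 0) [.inr 1] (by simp) (by simp) [] rfl
      ((update s b (s b).tail a).headD 0).bits.reverse _ _ (by simp))))).congr ?_ ?_
  · rw [← flatMap_codeD]
    by_cases hab : a = b
    · subst hab; simp [restD_tail]
    · simp [hab, enc2]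
  · simp only [Prod.mk.injEq, true_and]
    funext k
    rcases k with k | i
    · by_cases hka : k = a
      · subst hka; simp [restD_tail, enc2]
      · by_cases hkb : k = b
        · subst hkb; simp [restD_tail, enc2, hka]
        · simp [enc2, hka, hkb]
    · fin_cases i <;> simp [enc2]
  · simp only [List.length_reverse, List.length_cons, List.length_nil]
    omega

theorem run_arith (body : P1 (K ⊕ Fin 3)) (op : Bool → Bool → Bool → Bool × Bool)
    (xs ys : List Bool) (v : Rg) (S : K ⊕ Fin 3 → List (Option Bool))
    (h0 : S (.inr 0) = []) (h1 : S (.inr 1) = xs.map some) (h2 : S (.inr 2) = ys.map some) :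
    Run act1 tst1 body (arith op) (v, S)
      ((none, none, (arithL op (max xs.length ys.length) xs ys false).2), fun k => match k with
      | .inl k => S (.inl k)
      | .inr i => if i = 0 then
          (arithL op (max xs.length ys.length) xs ys false).1.reverse.map some else [])
      (max xs.length ys.length * 5 + 4) := by
  refine ((Run.act _ _).seq ((Run.act _ _).seq ((Run.act _ _).seq
    (run_arithLoop body op (.inr 0) (.inr 1) (.inr 2) (by simp) (by simp) (by simp) _ xs ys
      (v.1, v.2.1, false) S h1 h2 rfl)))).congr ?_ (by omega)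
  simp only [Prod.mk.injEq, true_and]
  funext k
  rcases k with k | i
  · simp
  · fin_cases i <;> simp [h0]

theorem run_trA (body : P1 (K ⊕ Fin 3)) (a : A2 K) (s : K → List ℕ) (B : ℕ) (h : Bd s B)
    (v : Rg) : ∃ v', Run act1 tst1 body (trA a) (v, enc2 s) (v', enc2 (act2 a s))
      (40 * (B + 1)) := by
  rcases a with k | k | k | ⟨a, b⟩ | ⟨a, b⟩ | ⟨a, b⟩ | a
  · refine ⟨v, (Run.act _ _).congr ?_ (by omega)⟩
    simp [act1, act2, enc2_update, codeD, enc2]
  · refine ⟨v, ((Run.act _ _).seq (Run.act _ _)).congr ?_ (by omega)⟩
    simp [act1, act2, enc2_update, codeD, enc2]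
  · have l1 := h.len k
    refine ⟨_, (run_xfer body (.inl k) [] (by simp) (by simp) (restD (s k)) (restD_head _)
      ((s k).headD 0).bits v (enc2 s) (flatMap_codeD _)).congr
        (Prod.ext rfl ?_) (by simp only [List.length_nil]; omega)⟩
    funext j
    simp only [act2, enc2_update, restD_tail, update_apply]
    simp
  · have l1 := h.len a
    refine ⟨_, ((run_xfer body (.inl a) [.inr 0, .inr 1] (by simp) (by simp) (restD (s a))
      (restD_head _) ((s a).headD 0).bits v (enc2 s) (flatMap_codeD _)).seq ((Run.act _ _).seq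
      ((run_xfer body (.inr 0) [.inl a] (by simp) (by simp) [] rfl ((s a).headD 0).bits.reverse _ _
        (by simp [enc2])).seq ((Run.act _ _).seq
      (run_xfer body (.inr 1) [.inl b] (by simp) (by simp) [] rfl ((s a).headD 0).bits.reverse _ _
        (by simp [enc2])))))).congr (Prod.ext rfl ?_) ?_⟩
    · funext j
      rcases j with j | i
      · by_cases hjb : j = b
        · subst hjb
          by_cases hja : j = a
          · subst hja; simp [act2, enc2, restD_tail, codeD]
          · simp [act2, enc2, hja, codeD]
        · by_cases hja : j = a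
          · subst hja; simp [act2, enc2, restD_tail, codeD, hjb]
          · simp [act2, enc2, hja, hjb]
      · fin_cases i <;> simp [enc2]
    · simp only [List.length_reverse, List.length_cons, List.length_nil]; omega
  · have l1 := h.len b
    have l2 := (h.tail b).len a
    set x := (update s b (s b).tail a).headD 0 with hx
    set y := (s b).headD 0 with hy
    set n := max x.bits.length y.bits.length with hn
    refine ⟨_, ((run_loadOps body a b s B h v).seq ((run_arith body opAdd x.bits y.bits _ _
      (by simp) (by simp [hx]) (by simp [hy])).seq ((Run.act _ _).seq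
      (run_norm body (.inr 0) (.inl a) (by simp)
        ((arithL opAdd n x.bits y.bits false).1 ++ [(arithL opAdd n x.bits y.bits false).2]) _ _
        (by simp [hn]))))).congr (Prod.ext rfl ?_) ?_⟩
    · rw [val_arith_add n _ _ _ (by omega) (by omega), val_bits, val_bits]
      funext j
      rcases j with j | i
      · by_cases hja : j = a
        · subst hja; simp [act2, enc2, hx, hy]
        · simp [act2, enc2, hja]
      · fin_cases i <;> simp [enc2]
    · simp only [List.length_append, arithL_length, List.length_cons, List.length_nil]; omega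
  · have l1 := h.len b
    have l2 := (h.tail b).len a
    set x := (update s b (s b).tail a).headD 0 with hx
    set y := (s b).headD 0 with hy
    set n := max x.bits.length y.bits.length with hn
    obtain ⟨e1, e2⟩ := val_arith_sub n x.bits y.bits false (by omega) (by omega)
    rw [val_bits, val_bits] at e1
    rcases hc : (arithL opSub n x.bits y.bits false).2 with _ | _
    · refine ⟨_, ((run_loadOps body a b s B h v).seq ((run_arith body opSub x.bits y.bits _ _
        (by simp) (by simp [hx]) (by simp [hy])).seq ((Run.iteF (by simpa [tst1] using hc)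
        (Run.act _ _)).seq
        (run_norm body (.inr 0) (.inl a) (by simp) (arithL opSub n x.bits y.bits false).1 _ _
          (by simp [hn]))))).congr (Prod.ext rfl ?_) ?_⟩
      · have : val (arithL opSub n x.bits y.bits false).1 = x - y := by
          rw [hc] at e1; simp at e1; omega
        rw [this]
        funext j
        rcases j with j | i
        · by_cases hja : j = a
          · subst hja; simp [act2, enc2, hx, hy]
          · simp [act2, enc2, hja]
        · fin_cases i <;> simp [enc2]
      · simp only [arithL_length]; omega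
    · refine ⟨_, ((run_loadOps body a b s B h v).seq ((run_arith body opSub x.bits y.bits _ _
        (by simp) (by simp [hx]) (by simp [hy])).seq ((Run.iteT (by simpa [tst1] using hc)
        (run_xfer body (.inr 0) [] (by simp) (by simp) [] rfl
          (arithL opSub n x.bits y.bits false).1.reverse _ _ (by simp [hn]))).seq
        (run_norm body (.inr 0) (.inl a) (by simp) [] _ _
          (by simp))))).congr (Prod.ext rfl ?_) ?_⟩
      · have : val [] = x - y := by
          rw [hc] at e1; simp [val] at e1 ⊢; omega
        rw [this]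
        funext j
        rcases j with j | i
        · by_cases hja : j = a
          · subst hja; simp [act2, enc2, hx, hy]
          · simp [act2, enc2, hja]
        · fin_cases i <;> simp [enc2]
      · simp only [arithL_length, List.length_reverse, List.length_nil]; omega
  · have e := Nat.div2_bits_eq_tail ((s a).headD 0)
    rw [Nat.div2_val] at e
    have e0 : enc2 s (.inl a) = ((s a).headD 0).bits.map some ++ restD (s a) := flatMap_codeD _
    rcases hb : ((s a).headD 0).bits with _ | ⟨d, ds⟩
    · refine ⟨_, ((Run.act _ _).seq (Run.iteF ?_ (Run.act _ _))).congr (Prod.ext rfl ?_)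
        (by omega)⟩
      · rw [hb] at e0
        simp [tst1, act1, rdA, e0, restD_head]
      · simp only [act1, rdA, act2, enc2_update, e0, hb, List.flatMap_cons, codeD, e]
        simp [restD_tail]
    · refine ⟨_, ((Run.act _ _).seq (Run.iteT ?_ (Run.act _ _))).congr (Prod.ext rfl ?_)
        (by omega)⟩
      · rw [hb] at e0
        simp [tst1, act1, rdA, e0]
      · simp only [act1, rdA, act2, enc2_update, e0, hb, List.flatMap_cons, codeD, e]
        rcases hs : s a with _ | ⟨z, l⟩
        · simp [hs] at hb
        · simp [restD]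

theorem act_trC (c : C2 K) (s : K → List ℕ) (v : Rg) :
    act1 (trC c) (v, enc2 s) = ((v.1, v.2.1, tst2 c s), enc2 s) := by
  rcases c with k | k
  · simp only [trC, act1, tst2, enc2]
    rcases s k with _ | ⟨x, l⟩
    · simp
    · rcases hb : x.bits with _ | ⟨d, ds⟩ <;> simp [codeD, hb]
  · simp only [trC, act1, tst2, enc2]
    rcases s k with _ | ⟨x, l⟩
    · simp
    · rcases hb : x.bits with _ | ⟨d, ds⟩
      · have : x = 0 := by rw [← val_bits x, hb]; rfl
        simp [codeD, this]
      · have : x ≠ 0 := by rintro rfl; simp at hb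
        simp [codeD, hb, this]

theorem sim2 (body : P2 K) {p : P2 K} {s s' : K → List ℕ} {t : ℕ} (h : Run2 body p s s' t) :
    ∀ B, Bd s B → Bd s' (B + t) ∧ ∀ M, 40 * (B + t + 1) ≤ M → ∀ v, ∃ v',
      Run act1 tst1 (tr body) (tr p) (v, enc2 s) (v', enc2 s') (t * M) := by
  induction h with
  | act a s =>
    intro B hB
    refine ⟨hB.act a, fun M hM v => ?_⟩
    obtain ⟨v', h⟩ := run_trA (tr body) a s B hB v
    exact ⟨v', h.weaken (by omega)⟩
  | @seq p q s s' s'' t t' _ _ ih1 ih2 =>
    intro B hB
    obtain ⟨b1, r1⟩ := ih1 B hB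
    obtain ⟨b2, r2⟩ := ih2 _ b1
    refine ⟨b2.mono (by omega), fun M hM v => ?_⟩
    obtain ⟨v1, h1⟩ := r1 M (by omega) v
    obtain ⟨v2, h2⟩ := r2 M (by omega) v1
    exact ⟨v2, (h1.seq h2).weaken (by rw [add_mul])⟩
  | @iteT c p q s s' t hc _ ih =>
    intro B hB
    obtain ⟨b1, r1⟩ := ih B hB
    refine ⟨b1.mono (by omega), fun M hM v => ?_⟩
    obtain ⟨v1, h1⟩ := r1 M (by omega) (v.1, v.2.1, tst2 c s)
    refine ⟨v1, ((Run.act' (act_trC c s v)).seq (Run.iteT hc h1)).weaken ?_⟩
    rw [add_mul]; omega
  | @iteF c p q s s' t hc _ ih =>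
    intro B hB
    obtain ⟨b1, r1⟩ := ih B hB
    refine ⟨b1.mono (by omega), fun M hM v => ?_⟩
    obtain ⟨v1, h1⟩ := r1 M (by omega) (v.1, v.2.1, tst2 c s)
    refine ⟨v1, ((Run.act' (act_trC c s v)).seq (Run.iteF hc h1)).weaken ?_⟩
    rw [add_mul]; omega
  | @loopF c p s hc =>
    intro B hB
    refine ⟨hB.mono (by omega), fun M hM v => ?_⟩
    exact ⟨_, ((Run.act' (act_trC c s v)).seq (Run.loopF hc)).weaken (by omega)⟩
  | @loopT c p s s' s'' t t' hc _ _ ih1 ih2 =>
    intro B hB
    obtain ⟨b1, r1⟩ := ih1 B hB
    obtain ⟨b2, r2⟩ := ih2 _ b1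
    refine ⟨b2.mono (by omega), fun M hM v => ?_⟩
    obtain ⟨v1, h1⟩ := r1 M (by omega) (v.1, v.2.1, tst2 c s)
    obtain ⟨v2, h2⟩ := r2 M (by omega) v1
    have inv : ∀ {q : P1 (K ⊕ Fin 3)} {a b : S1 (K ⊕ Fin 3) Rg} {u : ℕ},
        Run act1 tst1 (tr body) q a b u → ∀ (x : A1 (K ⊕ Fin 3) Rg) (r : P1 (K ⊕ Fin 3)),
        q = .seq (.act x) r → Run act1 tst1 (tr body) r (act1 x a) b u := by
      have inv0 : ∀ {q : P1 (K ⊕ Fin 3)} {a b : S1 (K ⊕ Fin 3) Rg} {u : ℕ},
          Run act1 tst1 (tr body) q a b u → ∀ (x : A1 (K ⊕ Fin 3) Rg),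
          q = .act x → b = act1 x a := by
        intro q a b u hq
        induction hq with
        | act a s => intro x hx; cases hx; rfl
        | weaken _ _ ih => exact ih
        | _ => intro x hx; cases hx
      intro q a b u hq
      induction hq with
      | seq h1 h2 _ _ =>
        intro x r hx
        cases hx
        rw [← inv0 h1 x rfl]
        exact h2.weaken (by omega)
      | weaken _ hle ih => intro x r hx; exact (ih x r hx).weaken hle
      | _ => intro x r hx; cases hx
    refine ⟨v2, ((Run.act' (act_trC c s v)).seq (Run.loopT hc (h1.seq (Run.act _ _))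
      (inv h2 _ _ rfl))).weaken ?_⟩
    rw [add_mul, add_mul]; omega
  | @call s s' t _ ih =>
    intro B hB
    obtain ⟨b1, r1⟩ := ih B hB
    refine ⟨b1.mono (by omega), fun M hM v => ?_⟩
    obtain ⟨v1, h1⟩ := r1 M (by omega) v
    refine ⟨v1, (Run.call h1).weaken ?_⟩
    rw [add_mul]; omega
  | @weaken p s s' t t' _ ht ih =>
    intro B hB
    obtain ⟨b1, r1⟩ := ih B hB
    refine ⟨b1.mono (by omega), fun M hM v => ?_⟩
    obtain ⟨v1, h1⟩ := r1 M (by omega) v
    exact ⟨v1, h1.weaken (Nat.mul_le_mul_right _ ht)⟩

/-- empty one stack -/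
def clr (k : K) : P2 K := .loop (.ne k) (.act (.pop k))

theorem run_clr (body : P2 K) (k : K) (s : K → List ℕ) :
    Run2 body (clr k) s (update s k []) (2 * (s k).length + 1) := by
  generalize hl : s k = l
  induction l generalizing s with
  | nil => exact (Run.loopF (by simp [tst2, hl])).congr (by rw [← hl]; simp) (by simp)
  | cons x l ih =>
    refine (Run.loopT (by simp [tst2, hl]) (Run.act _ _) (ih _ (by simp [act2, hl]))).congr
      (by simp [act2]) (by simp; omega)

/-- run `p`, then empty a list of stacks -/
def clrs (p : P2 K) : List K → P2 K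
  | [] => p
  | k :: ks => .seq (clrs p ks) (clr k)

theorem run_clrs (body p : P2 K) (s s' : K → List ℕ) (t n : ℕ) (h : Run2 body p s s' t)
    (hn : ∀ k, (s' k).length ≤ n) (ks : List K) :
    Run2 body (clrs p ks) s (fun k => if k ∈ ks then [] else s' k) (t + ks.length * (2 * n + 1)) := by
  induction ks with
  | nil => exact h.congr (by simp) (by simp)
  | cons k ks ih =>
    refine (ih.seq (run_clr body k _)).congr ?_ ?_
    · funext j
      by_cases hj : j = k
      · subst hj; simp
      · simp [hj]
    · have := hn k
      simp only [List.length_cons]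
      split_ifs
      · simp only [List.length_nil]; nlinarith
      · nlinarith

theorem run_len (body : P2 K) {p : P2 K} {s s' : K → List ℕ} {t : ℕ} (h : Run2 body p s s' t) :
    ∀ n, (∀ k, (s k).length ≤ n) → ∀ k, (s' k).length ≤ n + 2 * t := by
  induction h with
  | act a s =>
    intro n hn k
    have h1 := hn k
    rcases a with j | j | j | ⟨a, b⟩ | ⟨a, b⟩ | ⟨a, b⟩ | a <;>
      simp only [act2, update_apply] <;> split_ifs <;> subst_vars <;>
      (try simp only [List.length_cons, List.length_tail]) <;> omega
  | seq _ _ ih1 ih2 =>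
    intro n hn k
    have := ih2 _ (ih1 n hn) k
    omega
  | iteT _ _ ih => intro n hn k; have := ih n hn k; omega
  | iteF _ _ ih => intro n hn k; have := ih n hn k; omega
  | loopF _ => intro n hn k; have := hn k; omega
  | loopT _ _ _ ih1 ih2 =>
    intro n hn k
    have := ih2 _ (ih1 n hn) k
    omega
  | call _ ih => intro n hn k; have := ih n hn k; omega
  | weaken _ _ ih => intro n hn k; have := ih n hn k; omega

/-- binary code of a list of naturals -/
def encL (l : List ℕ) : List Bool :=
  l.flatMap (fun a => a.bits.flatMap (fun b => [true, b]) ++ [false])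

theorem encL_eq (l : List ℕ) : (l.flatMap codeD).flatMap encD = encL l := by
  unfold encL
  rw [List.flatMap_assoc]
  congr 1
  funext a
  simp [codeD, encD, List.flatMap_map]

theorem length_le_encL (l : List ℕ) : l.length ≤ (encL l).length := by
  induction l with
  | nil => simp
  | cons a l ih => simp [encL] at ih ⊢; omega

theorem lt_two_pow_encL (l : List ℕ) (x : ℕ) (hx : x ∈ l) : x < 2 ^ (encL l).length := by
  rw [← Nat.size_le, ← Nat.size_eq_bits_len]
  induction l with
  | nil => simp at hx
  | cons a l ih =>
    have e : (encL (a :: l)).length = 2 * a.bits.length + 1 + (encL l).length := by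
      simp [encL, List.length_flatMap]; omega
    rcases List.mem_cons.1 hx with rfl | hx
    · omega
    · have := ih hx; omega

open Turing in
/-- Every program over stacks of naturals is simulated by a machine with finite alphabets, with
quadratic overhead. -/
theorem exists_machine [Fintype K] (main body : P2 K) (k0 k1 : K) :
    ∃ (tm : TM2ComputableAux Bool Bool), (∀ k, Finite (tm.tm.Γ k)) ∧ ∃ C : ℕ,
      ∀ (i : List ℕ) (s' : K → List ℕ) (t : ℕ),
        Run2 body main (update (fun _ => []) k0 i) s' t →
        Nonempty (TM2OutputsInTime tm.tm ((encL i).map tm.inputAlphabet.invFun)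
          (some ((encL (s' k1)).map tm.outputAlphabet.invFun))
          (C * ((encL i).length + t + 1) ^ 2)) := by
  classical
  let ks : List K := (Finset.univ.erase k1).toList
  refine ⟨⟨machine (none, none, false) (Sum.inl k0) (Sum.inl k1) (tr (clrs main ks)) (tr body),
    Equiv.refl Bool, Equiv.refl Bool⟩, machine_finite _ _ _ _ _, 40 * (4 * ks.length + 1) ^ 2, ?_⟩
  intro i s' t h
  set L := (encL i).length with hL
  have hlen := run_len body h L (by
    intro k
    by_cases hk : k = k0
    · subst hk; simpa using length_le_encL i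
    · simp [hk])
  have h2 := run_clrs body main _ _ t _ h hlen ks
  have hB : Bd (update (fun _ => []) k0 i) L := by
    intro k x hx
    by_cases hk : k = k0
    · subst hk; exact lt_two_pow_encL i x (by simpa using hx)
    · simp [hk] at hx
  obtain ⟨v, h3⟩ := (sim2 body h2 L hB).2 _ le_rfl (none, none, false)
  have e1 : enc2 (update (fun _ => []) k0 i) = update (fun _ => []) (.inl k0) (i.flatMap codeD) := by
    rw [enc2_update]; congr 1; funext j; rcases j with j | j <;> rfl
  have e2 : enc2 (fun k => if k ∈ ks then [] else s' k) =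
      update (fun _ => []) (.inl k1) ((s' k1).flatMap codeD) := by
    funext j
    rcases j with j | j
    · by_cases hj : j = k1
      · subst hj; simp [enc2, ks]
      · simp [enc2, ks, hj]
    · simp [enc2]
  rw [e1, e2] at h3
  have h4 := machine_outputs (none, none, false) v (Sum.inl k0) (Sum.inl k1) _ _ _ _ _
    (h3.weaken (t' := 40 * (4 * ks.length + 1) ^ 2 * (L + t + 1) ^ 2) (by
      have a1 : L + (t + ks.length * (2 * (L + 2 * t) + 1)) + 1 ≤
          (4 * ks.length + 1) * (L + t + 1) := by nlinarith
      have a2 : t + ks.length * (2 * (L + 2 * t) + 1) ≤ (4 * ks.length + 1) * (L + t + 1) := by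
        omega
      calc _ ≤ ((4 * ks.length + 1) * (L + t + 1)) * (40 * ((4 * ks.length + 1) * (L + t + 1))) :=
            Nat.mul_le_mul a2 (Nat.mul_le_mul_left _ a1)
        _ = _ := by ring))
  rw [encL_eq, encL_eq] at h4
  have e3 : ∀ l : List Bool, List.map (Equiv.refl Bool).invFun l = l := fun l => List.map_id l
  exact (e3 (encL i)).symm ▸ (e3 (encL (s' k1))).symm ▸ h4

end Vale.Agent.Lib.StackLang
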