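import Vale.Agent.Lib.StackLang.NatLang

/-! A vector language: expressions with bounded sums, vector maps, a stack of saved vectors,
loops and one recursive procedure; translated into programs over stacks of naturals. -/

namespace Vale.Agent.Lib.StackLang

open Function

/-- Expressions. -/
inductive Ex (K : Type) : Type
  | top : K → Ex K
  | zero : Ex K
  | one : Ex K
  | add : Ex K → Ex K → Ex K
  | sub : Ex K → Ex K → Ex K
  | half : Ex K → Ex K
  | ifz : Ex K → Ex K → Ex K → Ex K
  | sum : K → List K → Ex K → Ex K

variable {K : Type} [DecidableEq K]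

/-- drop `i` entries of the stacks in `ks` -/
def dropS (ks : List K) (i : ℕ) (s : K → List ℕ) : K → List ℕ :=
  fun k => if k ∈ ks then (s k).drop i else s k

/-- Value of an expression. -/
def Ex.val : Ex K → (K → List ℕ) → ℕ
  | .top k, s => (s k).headD 0
  | .zero, _ => 0
  | .one, _ => 1
  | .add a b, s => a.val s + b.val s
  | .sub a b, s => a.val s - b.val s
  | .half a, s => a.val s / 2
  | .ifz c a b, s => if c.val s = 0 then a.val s else b.val s
  | .sum k ks e, s => ∑ i ∈ Finset.range (s k).length, e.val (dropS (k :: ks) i s)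

/-- Cost of an expression when all stacks have length at most `B`. -/
def Ex.cost : Ex K → ℕ → ℕ
  | .top _, _ => 2
  | .zero, _ => 1
  | .one, _ => 1
  | .add a b, B => a.cost B + b.cost B + 1
  | .sub a b, B => a.cost B + b.cost B + 1
  | .half a, B => a.cost B + 1
  | .ifz c a b, B => c.cost B + a.cost B + b.cost B + 2
  | .sum _ ks e, B => (ks.length + 1) * (20 * (B + 1)) + B * (e.cost B + ks.length + 6) + 6

/-- code of the saved vectors -/
def encF (F : List (List ℕ)) : List ℕ := F.flatMap (fun l => l.reverse.map (· + 1) ++ [0])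

/-- encoding of states; auxiliary stacks: evaluation, transfer, saved vectors, result -/
def lift3 (s : K → List ℕ) (ev t sv r : List ℕ) : K ⊕ Fin 4 → List ℕ
  | .inl k => s k
  | .inr i => if i = 0 then ev else if i = 1 then t else if i = 2 then sv else r

section
omit [DecidableEq K]
@[simp] theorem lift3_inl (s : K → List ℕ) (ev t sv r : List ℕ) (k : K) :
    lift3 s ev t sv r (.inl k) = s k := rfl
@[simp] theorem lift3_0 (s : K → List ℕ) (ev t sv r : List ℕ) :
    lift3 s ev t sv r (.inr 0) = ev := rfl
@[simp] theorem lift3_1 (s : K → List ℕ) (ev t sv r : List ℕ) :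
    lift3 s ev t sv r (.inr 1) = t := rfl
@[simp] theorem lift3_2 (s : K → List ℕ) (ev t sv r : List ℕ) :
    lift3 s ev t sv r (.inr 2) = sv := rfl
@[simp] theorem lift3_3 (s : K → List ℕ) (ev t sv r : List ℕ) :
    lift3 s ev t sv r (.inr 3) = r := rfl
end

@[simp] theorem upd3_inl (s : K → List ℕ) (ev t sv r l : List ℕ) (k : K) :
    update (lift3 s ev t sv r) (.inl k) l = lift3 (update s k l) ev t sv r := by
  funext j
  rcases j with j | j
  · by_cases h : j = k
    · subst h; simp
    · simp [h]
  · rw [update_of_ne (by simp)]; rfl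
@[simp] theorem upd3_0 (s : K → List ℕ) (ev t sv r l : List ℕ) :
    update (lift3 s ev t sv r) (.inr 0) l = lift3 s l t sv r := by
  funext j
  rcases j with j | j
  · simp
  · fin_cases j <;> simp
@[simp] theorem upd3_1 (s : K → List ℕ) (ev t sv r l : List ℕ) :
    update (lift3 s ev t sv r) (.inr 1) l = lift3 s ev l sv r := by
  funext j
  rcases j with j | j
  · simp
  · fin_cases j <;> simp
@[simp] theorem upd3_2 (s : K → List ℕ) (ev t sv r l : List ℕ) :
    update (lift3 s ev t sv r) (.inr 2) l = lift3 s ev t l r := by
  funext j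
  rcases j with j | j
  · simp
  · fin_cases j <;> simp
@[simp] theorem upd3_3 (s : K → List ℕ) (ev t sv r l : List ℕ) :
    update (lift3 s ev t sv r) (.inr 3) l = lift3 s ev t sv l := by
  funext j
  rcases j with j | j
  · simp
  · fin_cases j <;> simp

/-- move all of `a` onto `b` (reversing) -/
def mvAll {J : Type} (a b : J) : P2 J := .loop (.ne a) (.seq (.act (.dup a b)) (.act (.pop a)))

theorem run_mvAll {J : Type} [DecidableEq J] (body : P2 J) (a b : J) (hab : a ≠ b)
    (s : J → List ℕ) :
    Run2 body (mvAll a b) s (update (update s a []) b ((s a).reverse ++ s b))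
      (3 * (s a).length + 1) := by
  generalize hl : s a = l
  induction l generalizing s with
  | nil =>
    refine (Run.loopF (by simp [tst2, hl])).congr ?_ (by simp)
    have : update s a [] = s := by rw [← hl]; simp
    rw [this]; simp
  | cons x l ih =>
    refine (Run.loopT (by simp [tst2, hl]) ((Run.act _ _).seq (Run.act _ _))
      (ih _ (by simp [act2, hl, update_of_ne hab]))).congr ?_ (by simp; omega)
    funext j
    by_cases hb : j = b
    · subst hb; simp [act2, hl, hab.symm]
    · by_cases ha : j = a
      · subst ha; simp [act2, hb]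
      · simp [act2, ha, hb]

/-- save a copy of stack `k` -/
def saveP (k : K) : P2 (K ⊕ Fin 4) :=
  .seq (.act (.zero (.inr 2))) (.seq
    (.loop (.ne (.inl k)) (.seq (.act (.dup (.inl k) (.inr 1))) (.seq (.act (.dup (.inl k) (.inr 2)))
      (.seq (.act (.one (.inr 0))) (.seq (.act (.add (.inr 2) (.inr 0))) (.act (.pop (.inl k))))))))
    (mvAll (.inr 1) (.inl k)))

theorem run_saveP (body : P2 (K ⊕ Fin 4)) (k : K) (s : K → List ℕ) (ev r : List ℕ)
    (F : List (List ℕ)) :
    Run2 body (saveP k) (lift3 s ev [] (encF F) r) (lift3 s ev [] (encF (s k :: F)) r)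
      (9 * (s k).length + 3) := by
  have key : ∀ (l : List ℕ) (s : K → List ℕ) (t sv : List ℕ), s k = l →
      Run2 body (.loop (.ne (.inl k)) (.seq (.act (.dup (.inl k) (.inr 1)))
        (.seq (.act (.dup (.inl k) (.inr 2))) (.seq (.act (.one (.inr 0)))
        (.seq (.act (.add (.inr 2) (.inr 0))) (.act (.pop (.inl k))))))))
        (lift3 s ev t sv r)
        (lift3 (update s k []) ev (l.reverse ++ t) (l.reverse.map (· + 1) ++ sv) r)
        (6 * l.length + 1) := by
    intro l
    induction l with
    | nil =>
      intro s t sv hl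
      refine (Run.loopF (by simp [tst2, hl])).congr ?_ (by simp)
      have : update s k [] = s := by rw [← hl]; simp
      rw [this]; simp
    | cons x l ih =>
      intro s t sv hl
      refine (Run.loopT (by simp [tst2, hl]) (((Run.act _ _).seq ((Run.act _ _).seq
        ((Run.act _ _).seq ((Run.act _ _).seq (Run.act _ _))))).congr ?_ le_rfl)
        (ih (update s k l) (x :: t) ((x + 1) :: sv) (by simp))).congr (by simp) (by simp; omega)
      simp [act2, hl]
  refine ((Run.act' (s' := lift3 s ev [] (0 :: encF F) r) (by simp [act2])).seq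
    ((key _ s _ _ rfl).seq (run_mvAll body _ _ (by simp) _))).congr ?_ ?_
  · simp [encF]
  · simp; omega

/-- restore the last saved vector into stack `k` -/
def loadP (k : K) : P2 (K ⊕ Fin 4) :=
  .seq (clr (.inl k)) (.seq
    (.loop (.nz (.inr 2)) (.seq (.act (.one (.inr 0))) (.seq (.act (.sub (.inr 2) (.inr 0)))
      (.seq (.act (.dup (.inr 2) (.inl k))) (.act (.pop (.inr 2)))))))
    (.act (.pop (.inr 2))))

theorem run_loadP (body : P2 (K ⊕ Fin 4)) (k : K) (s : K → List ℕ) (ev r : List ℕ)
    (F : List (List ℕ)) :
    Run2 body (loadP k) (lift3 s ev [] (encF F) r)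
      (lift3 (update s k (F.headD [])) ev [] (encF F.tail) r)
      (2 * (s k).length + 5 * (F.headD []).length + 3) := by
  have key : ∀ (l : List ℕ) (s : K → List ℕ) (sv : List ℕ), sv.headD 0 = 0 →
      Run2 body (.loop (.nz (.inr 2)) (.seq (.act (.one (.inr 0)))
        (.seq (.act (.sub (.inr 2) (.inr 0)))
        (.seq (.act (.dup (.inr 2) (.inl k))) (.act (.pop (.inr 2)))))))
        (lift3 s ev [] (l.map (· + 1) ++ sv) r)
        (lift3 (update s k (l.reverse ++ s k)) ev [] sv r) (5 * l.length + 1) := by
    intro l
    induction l with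
    | nil =>
      intro s sv hsv
      exact (Run.loopF (by simpa [tst2] using hsv)).congr (by simp) (by simp)
    | cons x l ih =>
      intro s sv hsv
      refine (Run.loopT (by simp [tst2]) (((Run.act _ _).seq ((Run.act _ _).seq
        ((Run.act _ _).seq (Run.act _ _)))).congr ?_ le_rfl)
        (ih (update s k (x :: s k)) sv hsv)).congr (by simp) (by simp; omega)
      simp [act2]
  rcases F with _ | ⟨l, F⟩
  · refine ((run_clr body _ _).seq (((key [] (update s k []) [] rfl).seq (Run.act _ _)).congr
      rfl le_rfl |> fun h => by simpa [encF] using h)).congr ?_ ?_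
    · simp [act2, encF]
    · simp
  · refine ((run_clr body _ _).seq (((key l.reverse (update s k []) (0 :: encF F) rfl).seq
      (Run.act _ _)).congr rfl le_rfl |> fun h => by simpa [encF] using h)).congr ?_ ?_
    · simp [act2, encF]
    · simp; omega

/-- do nothing -/
def skipP : P2 (K ⊕ Fin 4) := .loop (.ne (.inr 1)) (.act (.pop (.inr 1)))

theorem run_skipP (body : P2 (K ⊕ Fin 4)) (s : K → List ℕ) (ev sv r : List ℕ) :
    Run2 body skipP (lift3 s ev [] sv r) (lift3 s ev [] sv r) 1 :=
  Run.loopF (by simp [tst2])

/-- save several stacks -/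
def savesP : List K → P2 (K ⊕ Fin 4)
  | [] => skipP
  | k :: ks => .seq (savesP ks) (saveP k)

/-- restore several stacks -/
def loadsP : List K → P2 (K ⊕ Fin 4)
  | [] => skipP
  | k :: ks => .seq (loadP k) (loadsP ks)

/-- pop several stacks -/
def popsP : List K → P2 (K ⊕ Fin 4)
  | [] => skipP
  | k :: ks => .seq (.act (.pop (.inl k))) (popsP ks)

/-- all stacks have length at most `B` -/
def Len (B : ℕ) (s : K → List ℕ) : Prop := ∀ k, (s k).length ≤ B

theorem Len.update {B : ℕ} {s : K → List ℕ} (h : Len B s) (k : K) (l : List ℕ)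
    (hl : l.length ≤ B) : Len B (update s k l) := by
  intro j
  by_cases hj : j = k
  · subst hj; simpa
  · rw [update_of_ne hj]; exact h j

theorem Len.dropS {B : ℕ} {s : K → List ℕ} (h : Len B s) (ks : List K) (i : ℕ) :
    Len B (dropS ks i s) := by
  intro j
  have := h j
  unfold StackLang.dropS
  split_ifs
  · simp; omega
  · exact this

theorem run_savesP (body : P2 (K ⊕ Fin 4)) (ks : List K) (s : K → List ℕ) (ev r : List ℕ)
    (F : List (List ℕ)) (B : ℕ) (h : Len B s) :
    Run2 body (savesP ks) (lift3 s ev [] (encF F) r) (lift3 s ev [] (encF (ks.map s ++ F)) r)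
      (ks.length * (9 * B + 3) + 1) := by
  induction ks with
  | nil => exact (run_skipP body _ _ _ _).weaken (by simp)
  | cons k ks ih =>
    refine (ih.seq (run_saveP body k s ev r _)).weaken ?_
    have := h k
    simp only [List.length_cons]; nlinarith

theorem run_loadsP (body : P2 (K ⊕ Fin 4)) (ks : List K) (s0 : K → List ℕ) (ev r : List ℕ)
    (F : List (List ℕ)) (B : ℕ) (h0 : Len B s0) : ∀ s : K → List ℕ, Len B s →
    Run2 body (loadsP ks) (lift3 s ev [] (encF (ks.map s0 ++ F)) r)
      (lift3 (fun k => if k ∈ ks then s0 k else s k) ev [] (encF F) r)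
      (ks.length * (7 * B + 3) + 1) := by
  induction ks with
  | nil => intro s h; exact (run_skipP body _ _ _ _).congr (by simp) (by simp)
  | cons k ks ih =>
    intro s h
    refine ((run_loadP body k s ev r _).seq (ih _ (h.update k _ (h0 k)))).congr ?_ ?_
    · congr 1
      funext j
      by_cases hj : j = k
      · subst hj; simp
      · simp [hj]
    · have := h k
      have := h0 k
      simp only [List.length_cons, List.map_cons, List.cons_append, List.headD_cons]; nlinarith

theorem run_popsP (body : P2 (K ⊕ Fin 4)) (ks : List K) (hks : ks.Nodup) (ev sv r : List ℕ) :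
    ∀ s : K → List ℕ, Run2 body (popsP ks) (lift3 s ev [] sv r)
      (lift3 (dropS ks 1 s) ev [] sv r) (ks.length + 1) := by
  induction ks with
  | nil =>
    intro s
    refine (run_skipP body _ _ _ _).congr ?_ (by simp)
    congr 1
  | cons k ks ih =>
    intro s
    rw [List.nodup_cons] at hks
    refine ((Run.act' (s' := lift3 (update s k (s k).tail) ev [] sv r) (by simp [act2])).seq
      (ih hks.2 _)).congr ?_ (by simp; omega)
    congr 1
    funext j
    by_cases hj : j = k
    · subst hj; simp [dropS, hks.1]
    · simp [dropS, hj]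

theorem dropS_dropS (ks : List K) (i j : ℕ) (s : K → List ℕ) :
    dropS ks i (dropS ks j s) = dropS ks (j + i) s := by
  funext k
  by_cases h : k ∈ ks <;> simp [dropS, h]

theorem dropS_zero (ks : List K) (s : K → List ℕ) : dropS ks 0 s = s := by
  funext k; simp [dropS]

theorem dropS_dedup (ks : List K) (i : ℕ) (s : K → List ℕ) : dropS ks.dedup i s = dropS ks i s := by
  funext k; simp [dropS]

/-- translation of expressions: the value is pushed on the evaluation stack -/
def trE : Ex K → P2 (K ⊕ Fin 4)
  | .top k => .ite (.ne (.inl k)) (.act (.dup (.inl k) (.inr 0))) (.act (.zero (.inr 0)))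
  | .zero => .act (.zero (.inr 0))
  | .one => .act (.one (.inr 0))
  | .add a b => .seq (trE a) (.seq (trE b) (.act (.add (.inr 0) (.inr 0))))
  | .sub a b => .seq (trE a) (.seq (trE b) (.act (.sub (.inr 0) (.inr 0))))
  | .half a => .seq (trE a) (.act (.half (.inr 0)))
  | .ifz c a b => .seq (trE c) (.ite (.nz (.inr 0)) (.seq (.act (.pop (.inr 0))) (trE b))
      (.seq (.act (.pop (.inr 0))) (trE a)))
  | .sum k ks e => .seq (savesP (k :: ks).dedup) (.seq (.act (.zero (.inr 0))) (.seq
      (.loop (.ne (.inl k)) (.seq (trE e) (.seq (.act (.add (.inr 0) (.inr 0)))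
        (popsP (k :: ks).dedup))))
      (loadsP (k :: ks).dedup)))

theorem restore_dropS (ks : List K) (i : ℕ) (s : K → List ℕ) :
    (fun k => if k ∈ ks.dedup then s k else dropS ks i s k) = s := by
  funext k
  by_cases h : k ∈ ks <;> simp [dropS, h]

theorem run_trE (body : P2 (K ⊕ Fin 4)) (B : ℕ) (e : Ex K) :
    ∀ (s : K → List ℕ) (ev r : List ℕ) (F : List (List ℕ)), Len B s →
    Run2 body (trE e) (lift3 s ev [] (encF F) r) (lift3 s (e.val s :: ev) [] (encF F) r)
      (e.cost B) := by
  induction e with
  | top k =>
    intro s ev r F h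
    rcases hk : s k with _ | ⟨x, l⟩
    · exact (Run.iteF (by simp [tst2, hk]) (Run.act _ _)).congr (by simp [act2, Ex.val, hk]) le_rfl
    · refine (Run.iteT (by simp [tst2, hk]) (Run.act _ _)).congr ?_ le_rfl
      simp only [act2, Ex.val, lift3_inl, hk, List.headD_cons, List.tail_cons, upd3_inl, lift3_0,
        upd3_0]
      rw [← hk, update_eq_self]
  | zero => intro s ev r F h; exact (Run.act _ _).congr (by simp [act2, Ex.val]) le_rfl
  | one => intro s ev r F h; exact (Run.act _ _).congr (by simp [act2, Ex.val]) le_rfl
  | add a b iha ihb =>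
    intro s ev r F h
    exact ((iha s ev r F h).seq ((ihb s _ r F h).seq (Run.act _ _))).congr
      (by simp [act2, Ex.val]) (by simp [Ex.cost]; omega)
  | sub a b iha ihb =>
    intro s ev r F h
    exact ((iha s ev r F h).seq ((ihb s _ r F h).seq (Run.act _ _))).congr
      (by simp [act2, Ex.val]) (by simp [Ex.cost]; omega)
  | half a iha =>
    intro s ev r F h
    exact ((iha s ev r F h).seq (Run.act _ _)).congr (by simp [act2, Ex.val]) (by simp [Ex.cost])
  | ifz c a b ihc iha ihb =>
    intro s ev r F h
    by_cases hc : c.val s = 0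
    · exact ((ihc s ev r F h).seq (Run.iteF (by simp [tst2, hc])
        ((Run.act' (by simp [act2])).seq (iha s ev r F h)))).congr (by simp [Ex.val, hc])
        (by simp [Ex.cost]; omega)
    · exact ((ihc s ev r F h).seq (Run.iteT (by simp [tst2, hc])
        ((Run.act' (by simp [act2])).seq (ihb s ev r F h)))).congr (by simp [Ex.val, hc])
        (by simp [Ex.cost]; omega)
  | sum k ks e ih =>
    intro s ev r F h
    have hl : (k :: ks).dedup.length ≤ ks.length + 1 := (List.dedup_sublist _).length_le
    have key : ∀ (n : ℕ) (s : K → List ℕ) (acc : ℕ) (F : List (List ℕ)), Len B s →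
        (s k).length = n →
        Run2 body (.loop (.ne (.inl k)) (.seq (trE e) (.seq (.act (.add (.inr 0) (.inr 0)))
          (popsP (k :: ks).dedup)))) (lift3 s (acc :: ev) [] (encF F) r)
          (lift3 (dropS (k :: ks) n s)
            ((acc + ∑ i ∈ Finset.range n, e.val (dropS (k :: ks) i s)) :: ev) [] (encF F) r)
          (n * (e.cost B + ks.length + 4) + 1) := by
      intro n
      induction n with
      | zero =>
        intro s acc F h hn
        have : s k = [] := List.eq_nil_of_length_eq_zero hn
        exact (Run.loopF (by simp [tst2, this])).congr (by simp [dropS_zero]) (by simp)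
      | succ n ihn =>
        intro s acc F h hn
        have hne : s k ≠ [] := by intro h0; simp [h0] at hn
        refine (Run.loopT (by simp [tst2, hne]) ((ih s _ r F h).seq
          ((Run.act' (s' := lift3 s ((acc + e.val s) :: ev) [] (encF F) r) (by simp [act2])).seq
          ((run_popsP body _ (List.nodup_dedup _) _ _ _ s).congr (by rw [dropS_dedup]) le_rfl)))
          (ihn (dropS (k :: ks) 1 s) _ F (h.dropS _ _) (by simp [dropS, hn]))).congr ?_ ?_
        · simp only [dropS_dropS, Finset.sum_range_succ', dropS_zero, add_comm 1]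
          congr 2; ring
        · nlinarith
    refine ((run_savesP body _ s ev r F B h).seq
      ((Run.act' (s' := lift3 s (0 :: ev) [] _ r) (by simp [act2])).seq ((key _ s 0 _ h rfl).seq
      (run_loadsP body _ s _ r F B h _ (h.dropS _ _))))).congr ?_ ?_
    · rw [restore_dropS]; simp [Ex.val]
    · have := h k
      simp only [Ex.cost]
      have a1 : (s k).length * (e.cost B + ks.length + 4) ≤ B * (e.cost B + ks.length + 6) :=
        Nat.mul_le_mul this (by omega)
      have a2 : (k :: ks).dedup.length * (9 * B + 3) + (k :: ks).dedup.length * (7 * B + 3) ≤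
          (ks.length + 1) * (20 * (B + 1)) := by
        rw [← mul_add]; exact Nat.mul_le_mul hl (by omega)
      omega

end Vale.Agent.Lib.StackLang
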