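import Vale.Agent.Lib.StackLang.Vec

/-! Commands of the vector language, their semantics and translation to machines. -/

namespace Vale.Agent.Lib.StackLang

open Function

/-- Commands. -/
inductive A3 (K : Type) : Type
  | set : K → Ex K → A3 K
  | push : K → Ex K → A3 K
  | pop : K → A3 K
  | map : K → K → List K → Ex K → A3 K
  | save : K → A3 K
  | load : K → A3 K

/-- Programs of the vector language; a test holds when its value is nonzero. -/
abbrev P3 (K : Type) : Type := Prog (A3 K) (Ex K)

/-- States: the stacks and the saved vectors. -/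
abbrev S3 (K : Type) : Type := (K → List ℕ) × List (List ℕ)

variable {K : Type} [DecidableEq K]

/-- the vector computed by a map command -/
def mapVal (k : K) (ks : List K) (e : Ex K) (s : K → List ℕ) : List ℕ :=
  (List.range (s k).length).map (fun i => e.val (dropS (k :: ks) i s))

/-- Semantics of commands. -/
def act3 : A3 K → S3 K → S3 K
  | .set k e, s => (update s.1 k [e.val s.1], s.2)
  | .push k e, s => (update s.1 k (e.val s.1 :: s.1 k), s.2)
  | .pop k, s => (update s.1 k (s.1 k).tail, s.2)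
  | .map d k ks e, s => (update s.1 d (mapVal k ks e s.1), s.2)
  | .save k, s => (s.1, s.1 k :: s.2)
  | .load k, s => (update s.1 k (s.2.headD []), s.2.tail)

/-- Big-step semantics in which all vectors have length at most `B`. -/
inductive Run3 (B : ℕ) (body : P3 K) : P3 K → S3 K → S3 K → ℕ → Prop
  | act (a : A3 K) (s : S3 K) : Len B s.1 → Len B (act3 a s).1 →
      Run3 B body (.act a) s (act3 a s) 1
  | seq {p q : P3 K} {s s' s'' : S3 K} {t t' : ℕ} : Run3 B body p s s' t →
      Run3 B body q s' s'' t' → Run3 B body (.seq p q) s s'' (t + t')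
  | iteT {c : Ex K} {p q : P3 K} {s s' : S3 K} {t : ℕ} : Len B s.1 → c.val s.1 ≠ 0 →
      Run3 B body p s s' t → Run3 B body (.ite c p q) s s' (t + 1)
  | iteF {c : Ex K} {p q : P3 K} {s s' : S3 K} {t : ℕ} : Len B s.1 → c.val s.1 = 0 →
      Run3 B body q s s' t → Run3 B body (.ite c p q) s s' (t + 1)
  | loopF {c : Ex K} {p : P3 K} {s : S3 K} : Len B s.1 → c.val s.1 = 0 →
      Run3 B body (.loop c p) s s 1
  | loopT {c : Ex K} {p : P3 K} {s s' s'' : S3 K} {t t' : ℕ} : Len B s.1 → c.val s.1 ≠ 0 →
      Run3 B body p s s' t → Run3 B body (.loop c p) s' s'' t' →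
      Run3 B body (.loop c p) s s'' (t + t' + 1)
  | call {s s' : S3 K} {t : ℕ} : Run3 B body body s s' t → Run3 B body .call s s' (t + 2)
  | weaken {p : P3 K} {s s' : S3 K} {t t' : ℕ} : Run3 B body p s s' t → t ≤ t' →
      Run3 B body p s s' t'

/-- Cost of a command. -/
def A3.cost : A3 K → ℕ → ℕ
  | .set _ e, B => e.cost B + 2 * B + 3
  | .push _ e, B => e.cost B + 2
  | .pop _, _ => 1
  | .map _ _ ks e, B => (ks.length + 1) * (20 * (B + 1)) + B * (e.cost B + ks.length + 12) + 6
  | .save _, B => 9 * B + 3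
  | .load _, B => 7 * B + 3

/-- translation of commands -/
def trA3 : A3 K → P2 (K ⊕ Fin 4)
  | .set k e => .seq (trE e) (.seq (clr (.inl k))
      (.seq (.act (.dup (.inr 0) (.inl k))) (.act (.pop (.inr 0)))))
  | .push k e => .seq (trE e) (.seq (.act (.dup (.inr 0) (.inl k))) (.act (.pop (.inr 0))))
  | .pop k => .act (.pop (.inl k))
  | .map d k ks e => .seq (savesP (k :: ks).dedup) (.seq
      (.loop (.ne (.inl k)) (.seq (trE e) (.seq (.act (.dup (.inr 0) (.inr 3)))
        (.seq (.act (.pop (.inr 0))) (popsP (k :: ks).dedup)))))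
      (.seq (loadsP (k :: ks).dedup) (.seq (clr (.inl d)) (mvAll (.inr 3) (.inl d)))))
  | .save k => saveP k
  | .load k => loadP k

theorem run_trA3 (body : P2 (K ⊕ Fin 4)) (B : ℕ) (a : A3 K) (s : S3 K) (h : Len B s.1)
    (h' : Len B (act3 a s).1) :
    Run2 body (trA3 a) (lift3 s.1 [] [] (encF s.2) [])
      (lift3 (act3 a s).1 [] [] (encF (act3 a s).2) []) (a.cost B) := by
  obtain ⟨s, F⟩ := s
  rcases a with ⟨k, e⟩ | ⟨k, e⟩ | k | ⟨d, k, ks, e⟩ | k | k
  · have := h k
    exact ((run_trE body B e s [] [] F h).seq ((run_clr body _ _).seq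
      ((Run.act _ _).seq (Run.act _ _)))).congr (by simp [act2, act3])
      (by simp [A3.cost] at this ⊢; omega)
  · exact ((run_trE body B e s [] [] F h).seq
      ((Run.act _ _).seq (Run.act _ _))).congr (by simp [act2, act3]) (by simp [A3.cost])
  · exact (Run.act _ _).congr (by simp [act2, act3]) le_rfl
  · have hl : (k :: ks).dedup.length ≤ ks.length + 1 := (List.dedup_sublist _).length_le
    have key : ∀ (n : ℕ) (s : K → List ℕ) (r : List ℕ) (F : List (List ℕ)), Len B s →
        (s k).length = n →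
        Run2 body (.loop (.ne (.inl k)) (.seq (trE e) (.seq (.act (.dup (.inr 0) (.inr 3)))
          (.seq (.act (.pop (.inr 0))) (popsP (k :: ks).dedup))))) (lift3 s [] [] (encF F) r)
          (lift3 (dropS (k :: ks) n s) [] [] (encF F)
            (((List.range n).map (fun i => e.val (dropS (k :: ks) i s))).reverse ++ r))
          (n * (e.cost B + ks.length + 5) + 1) := by
      intro n
      induction n with
      | zero =>
        intro s r F h hn
        have : s k = [] := List.eq_nil_of_length_eq_zero hn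
        exact (Run.loopF (by simp [tst2, this])).congr (by simp [dropS_zero]) (by simp)
      | succ n ihn =>
        intro s r F h hn
        have hne : s k ≠ [] := by intro h0; simp [h0] at hn
        refine (Run.loopT (by simp [tst2, hne]) ((run_trE body B e s [] r F h).seq
          ((Run.act _ _).seq
          ((Run.act' (s' := lift3 s [] [] (encF F) (e.val s :: r)) (by simp [act2])).seq
          ((run_popsP body _ (List.nodup_dedup _) _ _ _ s).congr (by rw [dropS_dedup]) le_rfl))))
          (ihn (dropS (k :: ks) 1 s) _ F (h.dropS _ _) (by simp [dropS, hn]))).congr ?_ ?_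
        · simp only [dropS_dropS, List.range_succ_eq_map, List.map_cons, dropS_zero, add_comm 1,
            List.map_map, List.reverse_cons, List.append_assoc, List.singleton_append]
          rfl
        · nlinarith
    refine ((run_savesP body _ s [] [] F B h).seq ((key _ s [] _ h rfl).seq
      ((run_loadsP body _ s _ _ F B h _ (h.dropS _ _)).seq ((run_clr body _ _).seq
      (run_mvAll body _ _ (by simp) _))))).congr ?_ ?_
    · rw [restore_dropS]; simp [act3, mapVal]
    · have := h k
      have hd := h d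
      rw [restore_dropS]
      simp only [A3.cost]
      have a1 : (s k).length * (e.cost B + ks.length + 5) ≤ B * (e.cost B + ks.length + 5) :=
        Nat.mul_le_mul this le_rfl
      have a2 : (k :: ks).dedup.length * (9 * B + 3) + (k :: ks).dedup.length * (7 * B + 3) ≤
          (ks.length + 1) * (20 * (B + 1)) := by
        rw [← mul_add]; exact Nat.mul_le_mul hl (by omega)
      have a3 : B * (e.cost B + ks.length + 12) = B * (e.cost B + ks.length + 5) + 7 * B := by ring
      simp only [lift3_inl, upd3_inl, lift3_3, List.append_nil, List.length_reverse,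
        List.length_map, List.length_range] at *
      omega
  · have := h k
    exact (run_saveP body k s [] [] F).congr (by simp [act3]) (by simp [A3.cost] at this ⊢; omega)
  · have := h k
    have h2 := h' k
    refine (run_loadP body k s [] [] F).congr (by simp [act3]) ?_
    simp only [A3.cost, act3, update_self] at this h2 ⊢
    omega

/-- translation of programs -/
def tr3 : P3 K → P2 (K ⊕ Fin 4)
  | .act a => trA3 a
  | .seq p q => .seq (tr3 p) (tr3 q)
  | .ite c p q => .seq (trE c) (.ite (.nz (.inr 0)) (.seq (.act (.pop (.inr 0))) (tr3 p))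
      (.seq (.act (.pop (.inr 0))) (tr3 q)))
  | .loop c p => .seq (trE c) (.seq (.loop (.nz (.inr 0))
      (.seq (.act (.pop (.inr 0))) (.seq (tr3 p) (trE c)))) (.act (.pop (.inr 0))))
  | .call => .call

/-- bound on the cost of every single step of a program -/
def pc : P3 K → ℕ → ℕ
  | .act a, B => a.cost B + 1
  | .seq p q, B => pc p B + pc q B
  | .ite c p q, B => c.cost B + 3 + pc p B + pc q B
  | .loop c p, B => c.cost B + 3 + pc p B
  | .call, _ => 1

theorem sim3 (B : ℕ) (body : P3 K) (M : ℕ) (hM : pc body B ≤ M) {p : P3 K} {s s' : S3 K} {t : ℕ}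
    (h : Run3 B body p s s' t) : pc p B ≤ M →
    Run2 (tr3 body) (tr3 p) (lift3 s.1 [] [] (encF s.2) []) (lift3 s'.1 [] [] (encF s'.2) [])
      (t * M) ∧ ∀ c q, p = .loop c q → Run2 (tr3 body) (.loop (.nz (.inr 0))
      (.seq (.act (.pop (.inr 0))) (.seq (tr3 q) (trE c))))
      (lift3 s.1 [c.val s.1] [] (encF s.2) []) (lift3 s'.1 [0] [] (encF s'.2) [])
      (t * M - (c.cost B + 1)) ∧ Len B s.1 ∧ 1 ≤ t := by
  have loopcase : ∀ (c : Ex K) (q : P3 K) (s s' : S3 K) (t : ℕ), pc (.loop c q) B ≤ M →
      (Run2 (tr3 body) (.loop (.nz (.inr 0))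
      (.seq (.act (.pop (.inr 0))) (.seq (tr3 q) (trE c))))
      (lift3 s.1 [c.val s.1] [] (encF s.2) []) (lift3 s'.1 [0] [] (encF s'.2) [])
      (t * M - (c.cost B + 1)) ∧ Len B s.1 ∧ 1 ≤ t) →
      Run2 (tr3 body) (tr3 (.loop c q)) (lift3 s.1 [] [] (encF s.2) [])
        (lift3 s'.1 [] [] (encF s'.2) []) (t * M) := by
    rintro c q s s' t hp ⟨h1, h2, h3⟩
    refine ((run_trE _ B c s.1 [] [] s.2 h2).seq (h1.seq (Run.act _ _))).congr
      (by simp [act2]) ?_
    simp only [pc] at hp
    have : M ≤ t * M := Nat.le_mul_of_pos_left _ h3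
    omega
  induction h with
  | act a s h1 h2 =>
    intro hp
    refine ⟨(run_trA3 _ B a s h1 h2).weaken (by simp [pc] at hp; omega), ?_⟩
    intro c q h; cases h
  | seq _ _ ih1 ih2 =>
    intro hp
    simp only [pc] at hp
    refine ⟨((ih1 (by omega)).1.seq (ih2 (by omega)).1).weaken (by rw [add_mul]), ?_⟩
    intro c q h; cases h
  | @iteT c p q s s' t h1 hc _ ih =>
    intro hp
    simp only [pc] at hp
    refine ⟨((run_trE _ B c s.1 [] [] s.2 h1).seq (Run.iteT (by simp [tst2, hc])
      ((Run.act' (by simp [act2])).seq (ih (by omega)).1))).weaken ?_, ?_⟩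
    · rw [add_mul]; omega
    · intro c q h; cases h
  | @iteF c p q s s' t h1 hc _ ih =>
    intro hp
    simp only [pc] at hp
    refine ⟨((run_trE _ B c s.1 [] [] s.2 h1).seq (Run.iteF (by simp [tst2, hc])
      ((Run.act' (by simp [act2])).seq (ih (by omega)).1))).weaken ?_, ?_⟩
    · rw [add_mul]; omega
    · intro c q h; cases h
  | @loopF c p s h1 hc =>
    intro hp
    have : Run2 (tr3 body) (.loop (.nz (.inr 0))
      (.seq (.act (.pop (.inr 0))) (.seq (tr3 p) (trE c))))
      (lift3 s.1 [c.val s.1] [] (encF s.2) []) (lift3 s.1 [0] [] (encF s.2) [])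
      (1 * M - (c.cost B + 1)) ∧ Len B s.1 ∧ 1 ≤ 1 := by
      refine ⟨(Run.loopF (by simp [tst2, hc])).congr (by rw [hc]) ?_, h1, le_rfl⟩
      simp only [pc] at hp; omega
    refine ⟨loopcase c p s s 1 hp this, ?_⟩
    intro c q h; cases h; exact this
  | @loopT c p s s' s'' t t' h1 hc _ _ ih1 ih2 =>
    intro hp
    obtain ⟨h2, h3, h4⟩ := (ih2 hp).2 c p rfl
    have : Run2 (tr3 body) (.loop (.nz (.inr 0))
      (.seq (.act (.pop (.inr 0))) (.seq (tr3 p) (trE c))))
      (lift3 s.1 [c.val s.1] [] (encF s.2) []) (lift3 s''.1 [0] [] (encF s''.2) [])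
      ((t + t' + 1) * M - (c.cost B + 1)) ∧ Len B s.1 ∧ 1 ≤ t + t' + 1 := by
      simp only [pc] at hp
      refine ⟨(Run.loopT (by simp [tst2, hc]) ((Run.act' (by simp [act2])).seq
        ((ih1 (by omega)).1.seq (run_trE _ B c s'.1 [] [] s'.2 h3))) h2).weaken ?_, h1, by omega⟩
      have : M ≤ t' * M := Nat.le_mul_of_pos_left _ h4
      rw [add_mul, add_mul]
      omega
    refine ⟨loopcase c p s s'' _ hp this, ?_⟩
    intro c q h; cases h; exact this
  | call _ ih =>
    intro hp
    simp only [pc] at hp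
    refine ⟨(Run.call (ih hM).1).weaken (by rw [add_mul]; omega), ?_⟩
    intro c q h; cases h
  | @weaken p s s' t t' _ ht ih =>
    intro hp
    refine ⟨(ih hp).1.weaken (Nat.mul_le_mul_right _ ht), ?_⟩
    intro c q h
    obtain ⟨h1, h2, h3⟩ := (ih hp).2 c q h
    have := Nat.mul_le_mul_right M ht
    exact ⟨h1.weaken (by omega), h2, by omega⟩

/-- polynomially bounded functions -/
def PolyB (f : ℕ → ℕ) : Prop := ∃ c d : ℕ, ∀ B, f B ≤ c * (B + 1) ^ d

theorem PolyB.const (c : ℕ) : PolyB (fun _ => c) := ⟨c, 0, fun _ => by simp⟩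

theorem PolyB.id : PolyB (fun B => B) := ⟨1, 1, fun _ => by simp⟩

theorem PolyB.add {f g : ℕ → ℕ} (hf : PolyB f) (hg : PolyB g) : PolyB (fun B => f B + g B) := by
  obtain ⟨c, d, h⟩ := hf
  obtain ⟨c', d', h'⟩ := hg
  refine ⟨c + c', d + d', fun B => ?_⟩
  have a1 : (B + 1) ^ d ≤ (B + 1) ^ (d + d') := Nat.pow_le_pow_right (by omega) (by omega)
  have a2 : (B + 1) ^ d' ≤ (B + 1) ^ (d + d') := Nat.pow_le_pow_right (by omega) (by omega)
  have := h B
  have := h' B
  have := Nat.mul_le_mul_left c a1
  have := Nat.mul_le_mul_left c' a2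
  show f B + g B ≤ _
  rw [add_mul]; omega

theorem PolyB.mul {f g : ℕ → ℕ} (hf : PolyB f) (hg : PolyB g) : PolyB (fun B => f B * g B) := by
  obtain ⟨c, d, h⟩ := hf
  obtain ⟨c', d', h'⟩ := hg
  refine ⟨c * c', d + d', fun B => ?_⟩
  calc f B * g B ≤ (c * (B + 1) ^ d) * (c' * (B + 1) ^ d') := Nat.mul_le_mul (h B) (h' B)
    _ = _ := by ring

omit [DecidableEq K] in
theorem Ex.cost_poly (e : Ex K) : PolyB e.cost := by
  induction e with
  | top k => exact PolyB.const 2
  | zero => exact PolyB.const 1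
  | one => exact PolyB.const 1
  | add a b iha ihb => exact (iha.add ihb).add (PolyB.const 1)
  | sub a b iha ihb => exact (iha.add ihb).add (PolyB.const 1)
  | half a iha => exact iha.add (PolyB.const 1)
  | ifz c a b ihc iha ihb => exact ((ihc.add iha).add ihb).add (PolyB.const 2)
  | sum k ks e ih =>
    exact (((PolyB.const _).mul ((PolyB.const 20).mul (PolyB.id.add (PolyB.const 1)))).add
      (PolyB.id.mul ((ih.add (PolyB.const _)).add (PolyB.const 6)))).add (PolyB.const 6)

omit [DecidableEq K] in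
theorem A3.cost_poly (a : A3 K) : PolyB a.cost := by
  rcases a with ⟨k, e⟩ | ⟨k, e⟩ | k | ⟨d, k, ks, e⟩ | k | k
  · exact (e.cost_poly.add ((PolyB.const 2).mul PolyB.id)).add (PolyB.const 3)
  · exact e.cost_poly.add (PolyB.const 2)
  · exact PolyB.const 1
  · exact (((PolyB.const _).mul ((PolyB.const 20).mul (PolyB.id.add (PolyB.const 1)))).add
      (PolyB.id.mul ((e.cost_poly.add (PolyB.const _)).add (PolyB.const 12)))).add (PolyB.const 6)
  · exact ((PolyB.const 9).mul PolyB.id).add (PolyB.const 3)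
  · exact ((PolyB.const 7).mul PolyB.id).add (PolyB.const 3)

omit [DecidableEq K] in
theorem pc_poly (p : P3 K) : PolyB (pc p) := by
  induction p with
  | act a => exact a.cost_poly.add (PolyB.const 1)
  | seq p q ihp ihq => exact ihp.add ihq
  | ite c p q ihp ihq => exact ((c.cost_poly.add (PolyB.const 3)).add ihp).add ihq
  | loop c p ih => exact (c.cost_poly.add (PolyB.const 3)).add ih
  | call => exact PolyB.const 1

open Turing in
/-- Every program of the vector language is simulated by a machine with finite alphabets, with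
polynomial overhead. -/
theorem exists_machine3 [Fintype K] (main body : P3 K) (k0 k1 : K) :
    ∃ (tm : TM2ComputableAux Bool Bool), (∀ k, Finite (tm.tm.Γ k)) ∧ ∃ C d : ℕ,
      ∀ (B : ℕ) (i : List ℕ) (s' : S3 K) (t : ℕ),
        Run3 B body main (update (fun _ => []) k0 i, []) s' t →
        Nonempty (TM2OutputsInTime tm.tm ((encL i).map tm.inputAlphabet.invFun)
          (some ((encL (s'.1 k1)).map tm.outputAlphabet.invFun))
          (C * ((encL i).length + t + B + 1) ^ d)) := by
  obtain ⟨tm, hfin, C, hC⟩ := exists_machine (tr3 main) (tr3 body) (Sum.inl k0) (Sum.inl k1)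
  obtain ⟨c, d, hc⟩ := (pc_poly main).add (pc_poly body)
  refine ⟨tm, hfin, C * (c + 1) ^ 2, 2 * (d + 1), fun B i s' t h => ?_⟩
  have h1 := (sim3 B body (c * (B + 1) ^ d) (by have := hc B; simp only [] at this; omega) h
    (by have := hc B; simp only [] at this; omega)).1
  have e : lift3 (update (fun _ => []) k0 i) [] [] (encF []) [] =
      update (fun _ => []) (Sum.inl k0) i := by
    rw [← upd3_inl]
    congr 1
    funext j
    rcases j with j | j
    · rfl
    · fin_cases j <;> rfl
  simp only [] at h1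
  rw [e] at h1
  obtain ⟨⟨⟨n, hn⟩, hle⟩⟩ := hC i _ _ h1
  refine ⟨⟨⟨n, hn⟩, le_trans hle ?_⟩⟩
  set L := (encL i).length
  set X := L + t + B + 1 with hX
  have a1 : (B + 1) ^ d ≤ X ^ d := Nat.pow_le_pow_left (by omega) d
  have a2 : X ≤ X ^ (d + 1) := Nat.le_self_pow (by omega) X
  have a3 : t * (c * (B + 1) ^ d) ≤ c * X ^ (d + 1) := by
    calc t * (c * (B + 1) ^ d) ≤ X * (c * X ^ d) :=
          Nat.mul_le_mul (by omega) (Nat.mul_le_mul_left c a1)
      _ = _ := by ring
  have a4 : L + t * (c * (B + 1) ^ d) + 1 ≤ (c + 1) * X ^ (d + 1) := by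
    rw [add_mul]; omega
  calc C * (L + t * (c * (B + 1) ^ d) + 1) ^ 2 ≤ C * ((c + 1) * X ^ (d + 1)) ^ 2 :=
        Nat.mul_le_mul_left C (Nat.pow_le_pow_left a4 2)
    _ = _ := by ring

/-- Postconditions: stacks, saved vectors, number of steps. -/
abbrev Post (K : Type) : Type := (K → List ℕ) → List (List ℕ) → ℕ → Prop

/-- Weakest preconditions with a step count. -/
def WP (B : ℕ) (body p : P3 K) (s : K → List ℕ) (F : List (List ℕ)) (Q : Post K) : Prop :=
  ∃ s' F' t, Run3 B body p (s, F) (s', F') t ∧ Len B s' ∧ Q s' F' t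

section
variable {B : ℕ} {body : P3 K} {s : K → List ℕ} {F : List (List ℕ)} {Q : Post K}

theorem WP.mono {p : P3 K} {Q' : Post K} (h : WP B body p s F Q)
    (hQ : ∀ s' F' t, Len B s' → Q s' F' t → Q' s' F' t) : WP B body p s F Q' := by
  obtain ⟨s', F', t, h1, h2, h3⟩ := h
  exact ⟨s', F', t, h1, h2, hQ s' F' t h2 h3⟩

theorem WP.seq {p q : P3 K}
    (h : WP B body p s F (fun s' F' t => WP B body q s' F' (fun s'' F'' t' => Q s'' F'' (t + t')))) :
    WP B body (.seq p q) s F Q := by
  obtain ⟨s', F', t, h1, _, s'', F'', t', h3, h4, h5⟩ := h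
  exact ⟨s'', F'', t + t', h1.seq h3, h4, h5⟩

theorem WP.act {a : A3 K} (h : Len B s) (h' : Len B (act3 a (s, F)).1)
    (hQ : Q (act3 a (s, F)).1 (act3 a (s, F)).2 1) : WP B body (.act a) s F Q :=
  ⟨_, _, _, Run3.act a (s, F) h h', h', hQ⟩

theorem WP.set {k : K} {e : Ex K} (h : Len B s) (hB : 1 ≤ B) {x : ℕ} (hx : e.val s = x)
    (hQ : Len B (update s k [x]) → Q (update s k [x]) F 1) :
    WP B body (.act (.set k e)) s F Q := by
  subst hx
  exact WP.act h (h.update k _ hB) (hQ (h.update k _ hB))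

theorem WP.push {k : K} {e : Ex K} (h : Len B s) {l : List ℕ} (hx : e.val s :: s k = l)
    (hB : l.length ≤ B) (hQ : Len B (update s k l) → Q (update s k l) F 1) :
    WP B body (.act (.push k e)) s F Q := by
  subst hx
  exact WP.act h (h.update k _ hB) (hQ (h.update k _ hB))

theorem WP.pop {k : K} (h : Len B s) {l : List ℕ} (hx : (s k).tail = l)
    (hQ : Len B (update s k l) → Q (update s k l) F 1) :
    WP B body (.act (.pop k)) s F Q := by
  subst hx
  have : Len B (update s k (s k).tail) := h.update k _ (by have := h k; simp; omega)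
  exact WP.act h this (hQ this)

theorem WP.map {d k : K} {ks : List K} {e : Ex K} (h : Len B s) {l : List ℕ}
    (hx : mapVal k ks e s = l) (hQ : Len B (update s d l) → Q (update s d l) F 1) :
    WP B body (.act (.map d k ks e)) s F Q := by
  subst hx
  have : Len B (update s d (mapVal k ks e s)) := h.update d _ (by simpa [mapVal] using h k)
  exact WP.act h this (hQ this)

theorem WP.save {k : K} (h : Len B s) (hQ : Q s (s k :: F) 1) :
    WP B body (.act (.save k)) s F Q :=
  WP.act h h hQ

theorem WP.load {k : K} {l : List ℕ} (h : Len B s) (hl : l.length ≤ B)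
    (hQ : Len B (update s k l) → Q (update s k l) F 1) :
    WP B body (.act (.load k)) s (l :: F) Q :=
  WP.act h (h.update k _ hl) (hQ (h.update k _ hl))

theorem WP.iteT {c : Ex K} {p q : P3 K} (h : Len B s)
    (hc : c.val s ≠ 0) (hp : WP B body p s F (fun s' F' t => Q s' F' (t + 1))) :
    WP B body (.ite c p q) s F Q := by
  obtain ⟨s', F', t, h1, h2, h3⟩ := hp
  exact ⟨s', F', _, h1.iteT h hc, h2, h3⟩

theorem WP.iteF {c : Ex K} {p q : P3 K} (h : Len B s)
    (hc : c.val s = 0) (hp : WP B body q s F (fun s' F' t => Q s' F' (t + 1))) :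
    WP B body (.ite c p q) s F Q := by
  obtain ⟨s', F', t, h1, h2, h3⟩ := hp
  exact ⟨s', F', _, h1.iteF h hc, h2, h3⟩

theorem WP.call (hp : WP B body body s F (fun s' F' t => Q s' F' (t + 2))) :
    WP B body .call s F Q := by
  obtain ⟨s', F', t, h1, h2, h3⟩ := hp
  exact ⟨s', F', _, h1.call, h2, h3⟩

/-- Loop rule: the invariant `I i` holds when `i` iterations remain; each costs at most `T`. -/
theorem WP.loop {c : Ex K} {p : P3 K} (I : ℕ → (K → List ℕ) → Prop) (T : ℕ)
    (h0 : ∀ s, Len B s → I 0 s → c.val s = 0)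
    (h1 : ∀ i s, Len B s → I (i + 1) s →
      c.val s ≠ 0 ∧ WP B body p s F (fun s' F' t => F' = F ∧ I i s' ∧ t ≤ T))
    (n : ℕ) (s : K → List ℕ) (h : Len B s) (hI : I n s) :
    WP B body (.loop c p) s F (fun s' F' t => F' = F ∧ I 0 s' ∧ t ≤ n * (T + 1) + 1) := by
  induction n generalizing s with
  | zero => exact ⟨s, F, 1, Run3.loopF h (h0 s h hI), h, rfl, hI, by simp⟩
  | succ n ih =>
    obtain ⟨hc, s', F', t, r1, l1, rfl, i1, ht⟩ := h1 n s h hI
    obtain ⟨s'', F'', t', r2, l2, rfl, i2, ht'⟩ := ih s' l1 i1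
    exact ⟨s'', _, _, Run3.loopT h hc r1 r2, l2, rfl, i2, by nlinarith⟩

end

end Vale.Agent.Lib.StackLang
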