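import Vale.Agent.Lib.StackLang.VecLang

/-! Small library of expressions and commands of the vector language. -/

namespace Vale.Agent.Lib.StackLang

open Function

variable {K : Type} [DecidableEq K]

theorem mapVal_ofFn {k : K} {ks : List K} {e : Ex K} {s : K → List ℕ} {n : ℕ}
    (hn : (s k).length = n) {f : Fin n → ℕ}
    (hf : ∀ i : Fin n, e.val (dropS (k :: ks) i s) = f i) : mapVal k ks e s = List.ofFn f := by
  subst hn
  apply List.ext_getElem
  · simp [mapVal]
  · intro i h1 h2
    simp only [mapVal, List.getElem_map, List.getElem_range, List.getElem_ofFn]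
    exact hf ⟨i, by simpa using h2⟩

theorem val_sum {k : K} {ks : List K} {e : Ex K} {s : K → List ℕ} {n : ℕ}
    (hn : (s k).length = n) :
    (Ex.sum k ks e).val s = ∑ i : Fin n, e.val (dropS (k :: ks) i s) := by
  subst hn
  rw [Ex.val, Finset.sum_range]

theorem headD_drop_ofFn {n : ℕ} (f : Fin n → ℕ) (i : Fin n) :
    ((List.ofFn f).drop i).headD 0 = f i := by
  simp

/-- literals -/
def Ex.lit : ℕ → Ex K
  | 0 => .zero
  | c + 1 => .add (Ex.lit c) .one

@[simp] theorem Ex.val_lit (c : ℕ) (s : K → List ℕ) : (Ex.lit c : Ex K).val s = c := by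
  induction c with
  | zero => rfl
  | succ c ih => simp [Ex.lit, Ex.val, ih]

/-- distance -/
def Ex.dist (a b : Ex K) : Ex K := .add (.sub a b) (.sub b a)

/-- `if a = b then x else y` -/
def Ex.ifeq (a b x y : Ex K) : Ex K := .ifz (a.dist b) x y

@[simp] theorem Ex.val_ifeq (a b x y : Ex K) (s : K → List ℕ) :
    (Ex.ifeq a b x y).val s = if a.val s = b.val s then x.val s else y.val s := by
  simp only [Ex.ifeq, Ex.dist, Ex.val]
  congr 1
  apply propext; omega

/-- `if a ≤ b then x else y` -/
def Ex.ifle (a b x y : Ex K) : Ex K := .ifz (.sub a b) x y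

@[simp] theorem Ex.val_ifle (a b x y : Ex K) (s : K → List ℕ) :
    (Ex.ifle a b x y).val s = if a.val s ≤ b.val s then x.val s else y.val s := by
  simp only [Ex.ifle, Ex.val]
  congr 1
  apply propext; omega

/-- entry of `v` at the position given by the top of `j`, using the index vector `ix` -/
def Ex.nth (v ix j : K) : Ex K := .sum v [ix] (.ifeq (.top ix) (.top j) (.top v) .zero)

theorem Ex.val_nth {v ix j : K} {s : K → List ℕ} {n : ℕ} {f : Fin n → ℕ}
    (hv : s v = List.ofFn f) (hix : s ix = List.ofFn (fun i : Fin n => (i : ℕ)))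
    (h1 : j ≠ v) (h2 : j ≠ ix) (i : Fin n) (hj : (s j).headD 0 = i) :
    (Ex.nth v ix j).val s = f i := by
  rw [Ex.nth, val_sum (n := n) (by simp [hv]), Finset.sum_eq_single i]
  · simp only [Ex.val_ifeq, Ex.val, dropS, List.mem_cons, h1, h2, hj, hv, hix, true_or, or_true,
      if_true, headD_drop_ofFn, List.not_mem_nil, or_self, if_false]
  · intro b _ hb
    simp only [Ex.val_ifeq, Ex.val, dropS, List.mem_cons, h1, h2, hj, hv, hix, true_or, or_true,
      if_true, headD_drop_ofFn, List.not_mem_nil, or_self, if_false]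
    rw [if_neg (fun h => hb (Fin.ext h))]
  · simp

/-- length of a stack -/
def Ex.len (k : K) : Ex K := .sum k [] .one

@[simp] theorem Ex.val_len (k : K) (s : K → List ℕ) : (Ex.len k).val s = (s k).length := by
  simp [Ex.len, Ex.val]

/-- product of the length of `ix` with the top of `k` -/
def Ex.mulLen (ix k : K) : Ex K := .sum ix [] (.top k)

theorem Ex.val_mulLen {ix k : K} (h : k ≠ ix) (s : K → List ℕ) :
    (Ex.mulLen ix k).val s = (s ix).length * (s k).headD 0 := by
  simp [Ex.mulLen, Ex.val, dropS, h]

/-- sequence of commands -/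
def seqs : List (P3 K) → P3 K → P3 K
  | [], q => q
  | p :: ps, q => .seq p (seqs ps q)

/-- save several stacks, then continue -/
def saves : List K → P3 K → P3 K
  | [], q => q
  | k :: ks, q => saves ks (.seq (.act (.save k)) q)

/-- restore several stacks, then continue -/
def loads : List K → P3 K → P3 K
  | [], q => q
  | k :: ks, q => .seq (.act (.load k)) (loads ks q)

section
variable {B : ℕ} {body : P3 K}

theorem WP.saves {ks : List K} {q : P3 K} {s : K → List ℕ} {F : List (List ℕ)}
    {Q : Post K} (h : Len B s)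
    (hq : WP B body q s (ks.map s ++ F) (fun s' F' t => Q s' F' (t + ks.length))) :
    WP B body (saves ks q) s F Q := by
  induction ks generalizing q Q with
  | nil => exact hq
  | cons k ks ih =>
    refine ih (WP.seq (WP.save h (hq.mono ?_)))
    intro s' F' t _ h
    have e : 1 + t + ks.length = t + (k :: ks).length := by simp; omega
    rw [e]; exact h

theorem WP.loads {ks : List K} {q : P3 K} {s0 s : K → List ℕ} {F : List (List ℕ)}
    {Q : Post K} (h0 : Len B s0) (h : Len B s)
    (hq : Len B (fun k => if k ∈ ks then s0 k else s k) →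
      WP B body q (fun k => if k ∈ ks then s0 k else s k) F
        (fun s' F' t => Q s' F' (t + ks.length))) :
    WP B body (loads ks q) s (ks.map s0 ++ F) Q := by
  induction ks generalizing s Q with
  | nil => simpa [StackLang.loads] using hq (by simpa using h)
  | cons k ks ih =>
    refine WP.seq (WP.load h (h0 k) (fun hl => ih hl (fun hl' => ?_)))
    have e : (fun j => if j ∈ ks then s0 j else update s k (s0 k) j) =
        (fun j => if j ∈ k :: ks then s0 j else s j) := by
      funext j
      by_cases hj : j = k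
      · subst hj; simp
      · simp [hj]
    rw [e] at hl' ⊢
    refine (hq hl').mono ?_
    intro s' F' t _ h
    have e : 1 + (t + ks.length) = t + (k :: ks).length := by simp; omega
    rw [e]; exact h

/-- build the vector `0, 1, …, c - 1` on `k` (which must be empty), counting `c` down -/
def mkIdx (k c : K) : P3 K :=
  .loop (.top c) (.seq (.act (.set c (.sub (.top c) .one))) (.act (.push k (.top c))))

theorem WP.mkIdx {k c : K} (hkc : k ≠ c) {s : K → List ℕ} {F : List (List ℕ)} (h : Len B s)
    (n : ℕ) (hn : n + 1 ≤ B) (hc : s c = [n]) (hk : s k = []) :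
    WP B body (mkIdx k c) s F (fun s' F' t => F' = F ∧
      s' = update (update s c [0]) k (List.ofFn (fun i : Fin n => (i : ℕ))) ∧ t ≤ n * 3 + 1) := by
  refine (WP.loop (fun i s' => i ≤ n ∧
    s' = update (update s c [i]) k (List.range' i (n - i))) 2 ?_ ?_ n s h ?_).mono ?_
  · rintro s' _ ⟨_, rfl⟩
    simp [Ex.val, hkc.symm]
  · rintro i s' hl ⟨hi, rfl⟩
    refine ⟨by simp [Ex.val, hkc.symm], ?_⟩
    refine WP.seq (WP.set hl (by omega) (x := i) (by simp [Ex.val, hkc.symm]) (fun hl => ?_))
    refine WP.push hl (l := List.range' i (n - i)) ?_ (by simp; omega)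
      (fun _ => ⟨rfl, ⟨by omega, ?_⟩, le_rfl⟩)
    · have : n - i = (n - (i + 1)) + 1 := by omega
      rw [this, List.range'_succ]
      simp [Ex.val, hkc]
    · funext j
      by_cases h1 : j = k
      · subst h1; simp
      · by_cases h2 : j = c
        · subst h2; simp [h1]
        · simp [h1, h2]
  · refine ⟨le_rfl, ?_⟩
    rw [← hc, update_eq_self, Nat.sub_self, List.range'_zero, ← hk, update_eq_self]
  · rintro s' F' t _ ⟨rfl, ⟨_, rfl⟩, ht⟩
    refine ⟨rfl, ?_, ht⟩
    congr 1
    apply List.ext_getElem <;> simp

end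

end Vale.Agent.Lib.StackLang
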