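import Vale.Agent.Lib.StackLang.VecLib

/-! Boolean expressions, small commands, and polynomial time machines. -/

namespace Vale.Agent.Lib.StackLang

open Function

variable {K : Type} [DecidableEq K]

/-- conjunction (truth is a nonzero value) -/
def Ex.and (a b : Ex K) : Ex K := .ifz a .zero b
/-- disjunction -/
def Ex.or (a b : Ex K) : Ex K := .add a b
/-- negation -/
def Ex.not (a : Ex K) : Ex K := .ifz a .one .zero
/-- exclusive or -/
def Ex.xor (a b : Ex K) : Ex K := .ifz a b b.not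
/-- equality test -/
def Ex.eq (a b : Ex K) : Ex K := .ifeq a b .one .zero
/-- strict order test -/
def Ex.lt (a b : Ex K) : Ex K := .ifle b a .zero .one
/-- normalise to zero or one -/
def Ex.norm (a : Ex K) : Ex K := .ifz a .zero .one

/-- the expression is true -/
def Ex.tr (e : Ex K) (s : K → List ℕ) : Prop := e.val s ≠ 0

section
variable {a b : Ex K} {s : K → List ℕ}

@[simp] theorem Ex.tr_and : (a.and b).tr s ↔ a.tr s ∧ b.tr s := by
  simp only [Ex.tr, Ex.and, Ex.val]; split_ifs with h <;> simp [h]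
@[simp] theorem Ex.tr_or : (a.or b).tr s ↔ a.tr s ∨ b.tr s := by
  simp only [Ex.tr, Ex.or, Ex.val]; omega
@[simp] theorem Ex.tr_not : a.not.tr s ↔ ¬ a.tr s := by
  simp only [Ex.tr, Ex.not, Ex.val]; split_ifs with h <;> simp [h]
@[simp] theorem Ex.tr_xor : (a.xor b).tr s ↔ ¬ (a.tr s ↔ b.tr s) := by
  simp only [Ex.tr, Ex.xor, Ex.not, Ex.val]; split_ifs with h h' <;> simp [*]
@[simp] theorem Ex.tr_eq : (a.eq b).tr s ↔ a.val s = b.val s := by
  simp only [Ex.tr, Ex.eq, Ex.val_ifeq, Ex.val]; split_ifs with h <;> simp [h]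
@[simp] theorem Ex.tr_lt : (a.lt b).tr s ↔ a.val s < b.val s := by
  simp only [Ex.tr, Ex.lt, Ex.val_ifle, Ex.val]; split_ifs with h <;> simp <;> omega
@[simp] theorem Ex.val_top (k : K) : (Ex.top k).val s = (s k).headD 0 := rfl

theorem Ex.val_norm {p : Prop} [Decidable p] (h : a.tr s ↔ p) :
    a.norm.val s = if p then 1 else 0 := by
  simp only [Ex.norm, Ex.val]
  by_cases hp : p
  · rw [if_neg (h.2 hp), if_pos hp]
  · rw [if_pos (not_not.1 (fun h' => hp (h.1 h'))), if_neg hp]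

theorem Ex.tr_sum {k : K} {ks : List K} {n : ℕ} (hn : (s k).length = n) :
    (Ex.sum k ks a).tr s ↔ ∃ i : Fin n, a.tr (dropS (k :: ks) i s) := by
  rw [Ex.tr, val_sum hn, Ne, Finset.sum_eq_zero_iff]
  simp [Ex.tr]

theorem Ex.val_count {k : K} {ks : List K} {n : ℕ} (hn : (s k).length = n) (p : ℕ → Prop)
    [DecidablePred p] (h : ∀ i : Fin n, a.tr (dropS (k :: ks) i s) ↔ p i) :
    (Ex.sum k ks a.norm).val s = ((Finset.range n).filter p).card := by
  rw [val_sum hn, Finset.sum_congr rfl (fun i _ => Ex.val_norm (h i)),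
    Fin.sum_univ_eq_sum_range (fun i => if p i then 1 else 0) n, Finset.card_filter]

end

/-- the vector `f 0, …, f (n - 1)` -/
def vec (n : ℕ) (f : ℕ → ℕ) : List ℕ := List.ofFn (fun i : Fin n => f i)

@[simp] theorem length_vec (n : ℕ) (f : ℕ → ℕ) : (vec n f).length = n := by simp [vec]

@[simp] theorem getElem_vec (n : ℕ) (f : ℕ → ℕ) (i : ℕ) (h : i < (vec n f).length) :
    (vec n f)[i] = f i := by simp [vec]

@[simp] theorem getElem?_vec (n : ℕ) (f : ℕ → ℕ) (i : Fin n) :
    (vec n f)[(i : ℕ)]? = some (f i) := by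
  rw [List.getElem?_eq_getElem (by simp)]; simp

theorem vec_congr {n : ℕ} {f g : ℕ → ℕ} (h : ∀ i < n, f i = g i) : vec n f = vec n g := by
  unfold vec
  congr 1
  funext i
  exact h i i.2

theorem mapVal_vec {k : K} {ks : List K} {e : Ex K} {s : K → List ℕ} {n : ℕ}
    (hn : (s k).length = n) {f : ℕ → ℕ}
    (hf : ∀ i : Fin n, e.val (dropS (k :: ks) i s) = f i) : mapVal k ks e s = vec n f :=
  mapVal_ofFn hn hf

theorem Ex.val_nth_vec {v ix j : K} {s : K → List ℕ} {n : ℕ} {f : ℕ → ℕ}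
    (hv : s v = vec n f) (hix : s ix = vec n id) (h1 : j ≠ v) (h2 : j ≠ ix) {i : ℕ} (hi : i < n)
    (hj : (s j).headD 0 = i) : (Ex.nth v ix j).val s = f i :=
  Ex.val_nth (f := fun i : Fin n => f i) hv hix h1 h2 ⟨i, hi⟩ hj

/-- agreement outside a list of stacks -/
def Same (ks : List K) (s s' : K → List ℕ) : Prop := ∀ k, k ∉ ks → s' k = s k

section
omit [DecidableEq K]
theorem Same.refl (ks : List K) (s : K → List ℕ) : Same ks s s := fun _ _ => rfl

theorem Same.trans {ks : List K} {s s' s'' : K → List ℕ} (h : Same ks s s') (h' : Same ks s' s'') :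
    Same ks s s'' := fun k hk => by rw [h' k hk, h k hk]

theorem Same.mono {ks ks' : List K} {s s' : K → List ℕ} (h : Same ks s s') (hk : ks ⊆ ks') :
    Same ks' s s' := fun j hj => h j (fun h => hj (hk h))
end

theorem Same.update {ks : List K} {s s' : K → List ℕ} (h : Same ks s s') {k : K} (hk : k ∈ ks)
    (l : List ℕ) : Same ks s (update s' k l) := fun j hj => by
  rw [update_of_ne (by rintro rfl; exact hj hk), h j hj]

theorem Same.dropS (ks : List K) (i : ℕ) (s : K → List ℕ) : Same ks s (dropS ks i s) :=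
  fun _ hk => if_neg hk

variable {B : ℕ} {body : P3 K}

/-- copy a stack -/
def cpy (d k : K) : P3 K := .act (.map d k [] (.top k))

theorem WP.cpy {d k : K} {s : K → List ℕ} {F : List (List ℕ)} {Q : Post K}
    (h : Len B s) {l : List ℕ} (hl : s k = l) (hQ : Len B (update s d l) → Q (update s d l) F 1) :
    WP B body (cpy d k) s F Q := by
  subst hl
  refine WP.map h ?_ hQ
  apply List.ext_getElem
  · simp [mapVal]
  · intro i h1 h2
    simp [mapVal, dropS, h2]

/-- put the vector `0, 1, …, e - 1` on `k`, using the counter `c` -/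
def idxP (k c : K) (e : Ex K) : P3 K :=
  .seq (.act (.set c e)) (.seq (.act (.set k .zero)) (.seq (.act (.pop k)) (mkIdx k c)))

theorem WP.idxP {k c : K} (hkc : k ≠ c) {e : Ex K} {s : K → List ℕ} {F : List (List ℕ)}
    (h : Len B s) {n : ℕ} (he : e.val s = n) (hn : n + 1 ≤ B) :
    WP B body (idxP k c e) s F (fun s' F' t => F' = F ∧ Same [k, c] s s' ∧
      s' k = vec n id ∧ t ≤ n * 3 + 4) := by
  refine WP.seq (WP.set h (by omega) he (fun h1 => ?_))
  refine WP.seq (WP.set h1 (by omega) (x := 0) rfl (fun h2 => ?_))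
  refine WP.seq (WP.pop h2 (l := []) (by simp) (fun h3 => ?_))
  refine (WP.mkIdx hkc h3 n hn (by simp [hkc.symm]) (by simp)).mono ?_
  rintro s' F' t _ ⟨rfl, rfl, ht⟩
  refine ⟨rfl, ?_, by simp [vec], by omega⟩
  repeat (refine Same.update ?_ (by simp) _)
  exact Same.refl _ _

/-- repeat `p` as often as the counter `c` says, decrementing it first -/
def forP (c : K) (p : P3 K) : P3 K :=
  .loop (.top c) (.seq (.act (.set c (.sub (.top c) .one))) p)

theorem WP.forP (hB : 1 ≤ B) {c : K} {p : P3 K} {F : List (List ℕ)}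
    (I : ℕ → (K → List ℕ) → Prop) (T n : ℕ)
    (h1 : ∀ i s, i < n → Len B (update s c [i]) → I (i + 1) s →
      WP B body p (update s c [i]) F (fun s' F' t => F' = F ∧ s' c = [i] ∧ I i s' ∧ t ≤ T))
    (s : K → List ℕ) (h : Len B s) (hc : s c = [n]) (hI : I n s) :
    WP B body (forP c p) s F (fun s' F' t => F' = F ∧ I 0 s' ∧ t ≤ n * (T + 2) + 1) := by
  refine (WP.loop (fun i s => i ≤ n ∧ s c = [i] ∧ I i s) (T + 1) ?_ ?_ n s h
    ⟨le_rfl, hc, hI⟩).mono ?_
  · rintro s' _ ⟨_, h1, _⟩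
    simp [h1]
  · rintro i s' l1 ⟨a0, a1, a2⟩
    refine ⟨by simp [a1], WP.seq (WP.set l1 hB (x := i) (by simp [Ex.val, a1]) (fun l2 => ?_))⟩
    refine (h1 i s' (by omega) l2 a2).mono ?_
    rintro s'' F' t _ ⟨rfl, b1, b2, b3⟩
    exact ⟨rfl, ⟨by omega, b1, b2⟩, by omega⟩
  · rintro s' F' t _ ⟨rfl, ⟨_, _, h⟩, ht⟩
    exact ⟨rfl, h, ht⟩

theorem PolyB.pow {f : ℕ → ℕ} (hf : PolyB f) (d : ℕ) : PolyB (fun L => f L ^ d) := by
  induction d with
  | zero => simpa using PolyB.const 1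
  | succ d ih => simpa [pow_succ] using ih.mul hf

theorem PolyB.lin (a b : ℕ) {f : ℕ → ℕ} (hf : PolyB f) : PolyB (fun L => a * f L + b) :=
  ((PolyB.const a).mul hf).add (PolyB.const b)

open Turing in
/-- A program with polynomially many steps gives a machine of polynomial time. -/
theorem exists_machine_poly [Fintype K] (main body : P3 K) (k0 k1 : K) (T Bd : ℕ → ℕ)
    (hT : PolyB T) (hB : PolyB Bd) :
    ∃ (tm : TM2ComputableAux Bool Bool), (∀ k, Finite (tm.tm.Γ k)) ∧ ∃ p : Polynomial ℕ,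
      ∀ (i : List ℕ) (Q : List ℕ → Prop),
        WP (Bd (encL i).length) body main (update (fun _ => []) k0 i) []
          (fun s _ t => Q (s k1) ∧ t ≤ T (encL i).length) →
        ∃ o, Q o ∧ Nonempty (TM2OutputsInTime tm.tm ((encL i).map tm.inputAlphabet.invFun)
          (some ((encL o).map tm.outputAlphabet.invFun)) (p.eval (encL i).length)) := by
  obtain ⟨tm, hfin, C, d, hC⟩ := exists_machine3 main body k0 k1
  obtain ⟨c, e, hc⟩ : PolyB (fun L => C * (L + T L + Bd L + 1) ^ d) :=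
    (PolyB.const C).mul ((((PolyB.id.add hT).add hB).add (PolyB.const 1)).pow d)
  refine ⟨tm, hfin, Polynomial.C c * (Polynomial.X + 1) ^ e, fun i Q h => ?_⟩
  obtain ⟨s, F, t, h1, _, h2, h3⟩ := h
  obtain ⟨⟨⟨n, hn⟩, hle⟩⟩ := hC _ i _ _ h1
  refine ⟨s k1, h2, ⟨⟨⟨n, hn⟩, le_trans hle (le_trans ?_ (le_trans (hc (encL i).length) ?_))⟩⟩⟩
  · exact Nat.mul_le_mul_left _ (Nat.pow_le_pow_left (by omega) _)
  · simp

end Vale.Agent.Lib.StackLang
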